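import Vale.Agent.P287T.Kx.Kr

/-!
# Polynomials with independent differentials generate the local ideal of their zero set
-/

open Filter Topology MvPolynomial

namespace Vale.Agent.P287T.Kx

variable {σ ι κ : Type} [Fintype σ] [Fintype ι] [Fintype κ]

/-- The differential of a polynomial at `a`. -/
noncomputable def dP (a : σ → ℂ) (f : MvPolynomial σ ℂ) : (σ → ℂ) →L[ℂ] ℂ :=
  ∑ k, eval a (pderiv k f) • ContinuousLinearMap.proj k

theorem dP_apply (a v : σ → ℂ) (f : MvPolynomial σ ℂ) :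
    dP a f v = ∑ k, eval a (pderiv k f) * v k := by simp [dP]

theorem dP_C (a : σ → ℂ) (c : ℂ) : dP a (C c) = 0 := by
  ext v
  simp [dP_apply]

theorem dP_add (a : σ → ℂ) (f g : MvPolynomial σ ℂ) : dP a (f + g) = dP a f + dP a g := by
  ext v
  simp [dP_apply, add_mul, Finset.sum_add_distrib]

theorem dP_X (a : σ → ℂ) (k : σ) : dP a (X k) = ContinuousLinearMap.proj k := by
  classical
  ext v
  simp [dP_apply, pderiv_X, Pi.single_apply, apply_ite (eval a)]

theorem dP_mul (a : σ → ℂ) (f g : MvPolynomial σ ℂ) :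
    dP a (f * g) = eval a f • dP a g + eval a g • dP a f := by
  ext v
  simp only [dP_apply, Derivation.leibniz, smul_eq_mul, map_add, map_mul, add_mul,
    Finset.sum_add_distrib, add_apply, smul_apply,
    Finset.mul_sum, mul_assoc]

theorem dP_sub (a : σ → ℂ) (f g : MvPolynomial σ ℂ) : dP a (f - g) = dP a f - dP a g := by
  ext v
  simp [dP_apply, sub_mul, Finset.sum_sub_distrib]

theorem dP_sum {α : Type} (a : σ → ℂ) (s : Finset α) (f : α → MvPolynomial σ ℂ) :
    dP a (∑ i ∈ s, f i) = ∑ i ∈ s, dP a (f i) := by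
  ext v
  simp only [dP_apply, map_sum, Finset.sum_mul, FunLike.coe_sum, Finset.sum_apply]
  exact Finset.sum_comm

theorem analyticAt_eval (f : MvPolynomial σ ℂ) (a : σ → ℂ) :
    AnalyticAt ℂ (fun z : σ → ℂ => eval z f) a :=
  AnalyticOnNhd.eval_mvPolynomial f a trivial

theorem hasFDerivAt_eval (f : MvPolynomial σ ℂ) (a : σ → ℂ) :
    HasFDerivAt (fun z : σ → ℂ => eval z f) (dP a f) a := by
  induction f using MvPolynomial.induction_on with
  | C c => simpa [dP_C] using hasFDerivAt_const c a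
  | add p q hp hq => simpa [dP_add] using hp.fun_add hq
  | mul_X p k hp =>
    have h0 : HasFDerivAt (fun z : σ → ℂ => z k) (ContinuousLinearMap.proj k : (σ → ℂ) →L[ℂ] ℂ) a :=
      (ContinuousLinearMap.proj k : (σ → ℂ) →L[ℂ] ℂ).hasFDerivAt
    simpa [dP_mul, dP_X] using hp.fun_mul h0

/-- The linear part. -/
noncomputable def lin (a : σ → ℂ) (l : (σ → ℂ) →L[ℂ] ℂ) : MvPolynomial σ ℂ := by
  classical exact ∑ k, C (l (Pi.single k 1)) * (X k - C (a k))

theorem clm_eq_sum [DecidableEq σ] (l : (σ → ℂ) →L[ℂ] ℂ) (v : σ → ℂ) :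
    ∑ k, l (Pi.single k 1) * v k = l v := by
  conv_rhs => rw [← Finset.univ_sum_single v, map_sum]
  refine Finset.sum_congr rfl fun k _ => ?_
  rw [mul_comm, ← smul_eq_mul, ← map_smul, ← Pi.single_smul, smul_eq_mul, mul_one]

theorem eval_lin (a z : σ → ℂ) (l : (σ → ℂ) →L[ℂ] ℂ) : eval z (lin a l) = l (z - a) := by
  classical
  rw [← clm_eq_sum]
  simp [lin]

theorem dP_lin (a z : σ → ℂ) (l : (σ → ℂ) →L[ℂ] ℂ) : dP z (lin a l) = l := by
  classical
  ext v
  rw [← clm_eq_sum l v]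
  simp [lin, dP_sum, dP_mul, dP_sub, dP_C, dP_X]

theorem lin_add (a : σ → ℂ) (l l' : (σ → ℂ) →L[ℂ] ℂ) : lin a (l + l') = lin a l + lin a l' :=
  MvPolynomial.funext fun z => by simp [eval_lin]

theorem lin_smul (a : σ → ℂ) (c : ℂ) (l : (σ → ℂ) →L[ℂ] ℂ) : lin a (c • l) = C c * lin a l :=
  MvPolynomial.funext fun z => by simp [eval_lin]

theorem taylor2 (a : σ → ℂ) (f : MvPolynomial σ ℂ) :
    f - C (eval a f) - lin a (dP a f) ∈ RingHom.ker (eval a) ^ 2 := by
  induction f using MvPolynomial.induction_on with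
  | C c =>
    have : lin a 0 = 0 := MvPolynomial.funext fun z => by simp [eval_lin]
    simp [dP_C, this]
  | add p q hp hq =>
    have := add_mem hp hq
    rw [dP_add, lin_add, map_add, map_add]
    refine (congrArg (· ∈ _) ?_).mp this
    ring
  | mul_X p k hp =>
    have h1 : lin a (ContinuousLinearMap.proj k) = X k - C (a k) :=
      MvPolynomial.funext fun z => by simp [eval_lin]
    have h2 : (p - C (eval a p)) * (X k - C (a k)) ∈ RingHom.ker (eval a) ^ 2 := by
      rw [pow_two]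
      exact Ideal.mul_mem_mul (by simp [RingHom.mem_ker]) (by simp [RingHom.mem_ker])
    have := add_mem h2 (Ideal.mul_mem_left _ (C (a k)) hp)
    rw [dP_mul, dP_X, lin_add, lin_smul, lin_smul, h1, map_mul, map_mul, eval_X]
    refine (congrArg (· ∈ _) ?_).mp this
    ring

/-- Polynomials whose differentials have no common kernel generate the maximal ideal locally. -/
theorem gen_max {α : Type} [Fintype α] (a : σ → ℂ) (f : α → MvPolynomial σ ℂ)
    (h0 : ∀ i, eval a (f i) = 0) (hinj : ∀ v, (∀ i, dP a (f i) v = 0) → v = 0) :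
    ∃ s, eval a s = 1 ∧ ∀ r, eval a r = 0 → s * r ∈ Ideal.span (Set.range f) := by
  set m : Ideal (MvPolynomial σ ℂ) := RingHom.ker (eval a) with hm
  have hle : m ≤ Ideal.span (Set.range f) ⊔ m • m := by
    intro r hr
    have h1 : (dP a r : (σ → ℂ) →ₗ[ℂ] ℂ) ∈
        Submodule.span ℂ (Set.range fun i => (dP a (f i) : (σ → ℂ) →ₗ[ℂ] ℂ)) := by
      refine mem_span_of_iInf_ker_le_ker fun v hv => ?_
      rw [hinj v fun i => (Submodule.mem_iInf _).1 hv i]
      exact zero_mem _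
    obtain ⟨c, hc⟩ := (Submodule.mem_span_range_iff_exists_fun ℂ).1 h1
    have h2 := taylor2 a (r - ∑ i, C (c i) * f i)
    have h3 : dP a (r - ∑ i, C (c i) * f i) = 0 := by
      ext v
      have := congrArg (fun l => l v) hc
      simp only [LinearMap.coe_sum, Finset.sum_apply, LinearMap.smul_apply,
        ContinuousLinearMap.coe_coe, smul_eq_mul] at this
      simp [dP_sub, dP_sum, dP_mul, dP_C, this]
    have h4 : lin a 0 = 0 := MvPolynomial.funext fun z => by simp [eval_lin]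
    have h5 : eval a (r - ∑ i, C (c i) * f i) = 0 := by
      simp [h0, (RingHom.mem_ker.1 hr : eval a r = 0)]
    rw [h3, h4, h5, map_zero, sub_zero, sub_zero, pow_two] at h2
    rw [← add_sub_cancel (∑ i, C (c i) * f i) r]
    exact add_mem (Ideal.mem_sup_left (Ideal.sum_mem _ fun i _ =>
      Ideal.mul_mem_left _ _ (Ideal.subset_span ⟨i, rfl⟩))) (Ideal.mem_sup_right h2)
  obtain ⟨s, hs, hs'⟩ := Submodule.exists_sub_one_mem_and_smul_le_of_fg_of_le_sup
    (IsNoetherian.noetherian m) le_rfl hle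
  refine ⟨s, ?_, fun r hr => hs' (Submodule.smul_mem_pointwise_smul _ _ _ hr)⟩
  have := RingHom.mem_ker.1 hs
  rwa [map_sub, map_one, sub_eq_zero] at this

/-- Core: a parametrisation by linear coordinates. -/
theorem krp0 (f : ι → MvPolynomial σ ℂ) (a : σ → ℂ) (T : (σ → ℂ) →L[ℂ] κ → ℂ)
    (hinj : ∀ v, (∀ i, dP a (f i) v = 0) → T v = 0 → v = 0) (ψ : (κ → ℂ) → σ → ℂ)
    (hc : ContinuousAt ψ 0) (h0 : ψ 0 = a) (hk : ∀ᶠ x in 𝓝 0, ∀ i, eval (ψ x) (f i) = 0)
    (hT : ∀ᶠ x in 𝓝 0, T (ψ x - a) = x) {α : Type} [Fintype α] {g : MvPolynomial σ ℂ}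
    {b : α → MvPolynomial σ ℂ} {h : α → (κ → ℂ) → ℂ} (hh : ∀ j, AnalyticAt ℂ (h j) 0)
    (hg : ∀ᶠ x in 𝓝 0, eval (ψ x) g = ∑ j, h j x * eval (ψ x) (b j)) :
    ∃ s, eval a s ≠ 0 ∧ s * g ∈ Ideal.span (Set.range f) ⊔ Ideal.span (Set.range b) := by
  let t : κ → MvPolynomial σ ℂ := fun j => lin a ((ContinuousLinearMap.proj j).comp T)
  have hf0 : ∀ i, eval a (f i) = 0 := fun i => by
    have := hk.self_of_nhds i
    rwa [h0] at this
  obtain ⟨s, hs, hs'⟩ := gen_max a (Sum.elim f t) (by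
    rintro (i | j)
    · exact hf0 i
    · simp [t, eval_lin]) fun v hv => hinj v (fun i => hv (.inl i)) (funext fun j => by
      simpa [t, dP_lin] using hv (.inr j))
  let c : Ch (aeval a : MvPolynomial σ ℂ →ₐ[ℂ] ℂ) (Ideal.span (Set.range f)) κ :=
    { ψ := fun x => aeval (ψ x)
      zero := by rw [h0]
      cont := fun r => by
        simp only [aeval_eq_eval]
        exact (MvPolynomial.continuous_eval r).continuousAt.comp hc
      t := t
      coord := by
        filter_upwards [hT] with x hx j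
        simp [aeval_eq_eval, t, eval_lin, hx]
      kill := by
        filter_upwards [hk] with x hx r hr
        have : Ideal.span (Set.range f) ≤ RingHom.ker (eval (ψ x)) :=
          Ideal.span_le.2 (by rintro _ ⟨i, rfl⟩; exact hx i)
        rw [aeval_eq_eval]
        exact this hr
      gen := fun r hr => by
        rw [aeval_eq_eval] at hr
        refine ⟨s, by rw [aeval_eq_eval, hs]; exact one_ne_zero, ?_⟩
        rw [← Ideal.span_union, ← Set.Sum.elim_range]
        exact hs' r hr }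
  obtain ⟨u, hu, hu'⟩ := c.krull (a := g) (b := b) hh (by simpa only [c, aeval_eq_eval] using hg)
  exact ⟨u, by rwa [aeval_eq_eval] at hu, hu'⟩

/-- The analytic inverse function theorem. -/
theorem exists_inv {E F : Type} [NormedAddCommGroup E] [NormedSpace ℂ E] [CompleteSpace E]
    [NormedAddCommGroup F] [NormedSpace ℂ F] [CompleteSpace F] {Φ : E → F} {a : E}
    (hΦ : AnalyticAt ℂ Φ a) (e : E ≃L[ℂ] F) (he : HasFDerivAt Φ (e : E →L[ℂ] F) a) :
    ∃ g : F → E, AnalyticAt ℂ g (Φ a) ∧ g (Φ a) = a ∧ (∀ᶠ y in 𝓝 (Φ a), Φ (g y) = y) ∧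
      ∀ᶠ x in 𝓝 a, g (Φ x) = x := by
  have hs : HasStrictFDerivAt Φ (e : E →L[ℂ] F) a := he.fderiv ▸ hΦ.hasStrictFDerivAt
  refine ⟨hs.localInverse Φ e a, ?_, hs.localInverse_apply_image, hs.eventually_right_inverse,
    hs.eventually_left_inverse⟩
  exact (hs.toOpenPartialHomeomorph Φ).analyticAt_symm' hs.mem_toOpenPartialHomeomorph_source hΦ
    he.fderiv

/-- **Analytic relations along an immersion `z` onto the zero set of the `f i` hold in the local
ring.** -/
theorem krp (f : ι → MvPolynomial σ ℂ) {z : (κ → ℂ) → σ → ℂ} {x₀ : κ → ℂ} (hz : AnalyticAt ℂ z x₀)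
    (hi : Function.Injective (fderiv ℂ z x₀))
    (hr : ∀ v, (∀ i, dP (z x₀) (f i) v = 0) → ∃ w, fderiv ℂ z x₀ w = v)
    (hk : ∀ᶠ x in 𝓝 x₀, ∀ i, eval (z x) (f i) = 0) {α : Type} [Fintype α] {g : MvPolynomial σ ℂ}
    {b : α → MvPolynomial σ ℂ} {h : α → (κ → ℂ) → ℂ} (hh : ∀ j, AnalyticAt ℂ (h j) x₀)
    (hg : ∀ᶠ x in 𝓝 x₀, eval (z x) g = ∑ j, h j x * eval (z x) (b j)) :
    ∃ s, eval (z x₀) s ≠ 0 ∧ s * g ∈ Ideal.span (Set.range f) ⊔ Ideal.span (Set.range b) := by
  obtain ⟨T₀, hT₀⟩ := (fderiv ℂ z x₀ : (κ → ℂ) →ₗ[ℂ] σ → ℂ).exists_leftInverse_of_injective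
    (LinearMap.ker_eq_bot.2 hi)
  let T : (σ → ℂ) →L[ℂ] κ → ℂ := LinearMap.toContinuousLinearMap T₀
  have hT : ∀ w, T (fderiv ℂ z x₀ w) = w := fun w => congrArg (fun l => l w) hT₀
  have h1 : AnalyticAt ℂ (fun x => T (z x - z x₀)) x₀ :=
    (T.analyticAt _).comp (hz.sub analyticAt_const)
  have h2 : HasFDerivAt (fun x => T (z x - z x₀))
      (ContinuousLinearEquiv.refl ℂ (κ → ℂ) : (κ → ℂ) →L[ℂ] κ → ℂ) x₀ := by
    refine (T.hasFDerivAt.comp x₀ (hz.differentiableAt.hasFDerivAt.sub_const (z x₀))).congr_fderiv ?_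
    ext1 w
    exact hT w
  obtain ⟨θ, hθ, hθ0, hθ1, -⟩ := exists_inv h1 _ h2
  simp only [sub_self, map_zero] at hθ hθ0 hθ1
  have ht : Tendsto θ (𝓝 0) (𝓝 x₀) := hθ0 ▸ hθ.continuousAt.tendsto
  refine krp0 f (z x₀) T (fun v hv hv' => ?_) (fun x => z (θ x)) ?_ (by simp only [hθ0])
    (ht.eventually hk) hθ1 (h := fun j x => h j (θ x)) (fun j => ?_) (ht.eventually hg)
  · obtain ⟨w, rfl⟩ := hr v hv
    rw [hT] at hv'
    rw [hv', map_zero]
  · exact ContinuousAt.comp_of_eq hz.continuousAt hθ.continuousAt hθ0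
  · exact AnalyticAt.comp_of_eq (hh j) hθ hθ0

/-- The zero set of polynomials with independent differentials is parametrised. -/
theorem exists_par (f : ι → MvPolynomial σ ℂ) (a : σ → ℂ) (h0 : ∀ i, eval a (f i) = 0)
    (hs : ∀ c : ι → ℂ, ∃ v, ∀ i, dP a (f i) v = c i) :
    ∃ (d : ℕ) (T : (σ → ℂ) →L[ℂ] Fin d → ℂ) (ψ : (Fin d → ℂ) → σ → ℂ),
      d + Fintype.card ι = Fintype.card σ ∧
      (∀ v, (∀ i, dP a (f i) v = 0) → T v = 0 → v = 0) ∧ AnalyticAt ℂ ψ 0 ∧ ψ 0 = a ∧
      (∀ᶠ x in 𝓝 0, ∀ i, eval (ψ x) (f i) = 0) ∧ (∀ᶠ x in 𝓝 0, T (ψ x - a) = x) ∧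
      ∀ᶠ z in 𝓝 a, (∀ i, eval z (f i) = 0) → ψ (T (z - a)) = z := by
  let A : (σ → ℂ) →L[ℂ] ι → ℂ := ContinuousLinearMap.pi fun i => dP a (f i)
  let K : Submodule ℂ (σ → ℂ) := LinearMap.ker (A : (σ → ℂ) →ₗ[ℂ] ι → ℂ)
  obtain ⟨π, hπ⟩ := K.subtype.exists_leftInverse_of_injective K.ker_subtype
  let e := (Module.finBasis ℂ K).equivFun
  let T : (σ → ℂ) →L[ℂ] Fin (Module.finrank ℂ K) → ℂ :=
    LinearMap.toContinuousLinearMap (e.toLinearMap ∘ₗ π)
  have hinj : ∀ v, (∀ i, dP a (f i) v = 0) → T v = 0 → v = 0 := fun v hv hv' => by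
    have h1 : π v = 0 := e.injective (hv'.trans (map_zero e).symm)
    have h2 : π v = ⟨v, funext hv⟩ := congrArg (fun l => l ⟨v, funext hv⟩) hπ
    exact congrArg Subtype.val (h2.symm.trans h1)
  have hd : Module.finrank ℂ K + Fintype.card ι = Fintype.card σ := by
    have h1 := LinearMap.finrank_range_add_finrank_ker (A : (σ → ℂ) →ₗ[ℂ] ι → ℂ)
    rw [LinearMap.range_eq_top.2 fun c => (hs c).imp fun v hv => funext hv] at h1
    simp only [finrank_top, Module.finrank_fintype_fun_eq_card] at h1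
    rw [add_comm]
    exact h1
  have hL : Function.Injective (A.prod T) := (injective_iff_map_eq_zero _).2 fun v hv =>
    hinj v (fun i => congrFun (congrArg Prod.fst hv) i) (congrArg Prod.snd hv)
  let L : (σ → ℂ) ≃L[ℂ] (ι → ℂ) × (Fin (Module.finrank ℂ K) → ℂ) :=
    (LinearEquiv.ofInjectiveOfFinrankEq (A.prod T).toLinearMap hL (by
      simp [← hd, add_comm])).toContinuousLinearEquiv
  have h1 : AnalyticAt ℂ (fun z => ((fun i => eval z (f i)), T (z - a))) a :=
    (analyticAt_pi_iff.2 fun i => analyticAt_eval _ _).prod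
      ((T.analyticAt _).comp (analyticAt_id.sub analyticAt_const))
  have h2 : HasFDerivAt (fun z => ((fun i => eval z (f i)), T (z - a)))
      (L : (σ → ℂ) →L[ℂ] _) a := by
    refine ((hasFDerivAt_pi.2 fun i => hasFDerivAt_eval (f i) a).prodMk
      (T.hasFDerivAt.comp a ((hasFDerivAt_id a).sub_const a))).congr_fderiv ?_
    ext1 w
    rfl
  obtain ⟨g, hg, hg0, hg1, hg2⟩ := exists_inv h1 L h2
  simp only [sub_self, map_zero, h0] at hg hg0 hg1
  have hι : AnalyticAt ℂ (fun x : Fin (Module.finrank ℂ K) → ℂ => ((fun _ : ι => (0 : ℂ)), x)) 0 :=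
    analyticAt_const.prod analyticAt_id
  have h3 := hι.continuousAt.tendsto.eventually hg1
  refine ⟨_, T, fun x => g (fun _ => 0, x), hd, hinj, hg.comp hι, hg0, ?_, ?_, ?_⟩
  · filter_upwards [h3] with x hx i using congrFun (congrArg Prod.fst hx) i
  · filter_upwards [h3] with x hx using congrArg Prod.snd hx
  · filter_upwards [hg2] with z hz hf
    simpa only [hf] using hz

theorem surj_of_li (f : ι → MvPolynomial σ ℂ) (a : σ → ℂ)
    (hli : LinearIndependent ℂ fun i k => eval a (pderiv k (f i))) (c : ι → ℂ) :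
    ∃ v, ∀ i, dP a (f i) v = c i := by
  classical
  have h1 := Matrix.vecMul_injective_iff.2
    (show LinearIndependent ℂ (Matrix.of fun i k => eval a (pderiv k (f i))).row from hli)
  have h2 : Function.Surjective (Matrix.of fun i k => eval a (pderiv k (f i))).mulVecLin := by
    rw [← LinearMap.range_eq_top, ← Submodule.dualAnnihilator_eq_bot_iff, eq_bot_iff]
    intro l hl
    have h3 : (fun i => l (Pi.single i 1)) = 0 := h1 (by
      funext k
      have := (Submodule.mem_dualAnnihilator l).1 hl _ ⟨Pi.single k 1, rfl⟩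
      rw [LinearMap.pi_apply_eq_sum_univ] at this
      have e : ∀ x : ι, (fun j => if x = j then (1 : ℂ) else 0) = Pi.single x 1 := fun x => by
        funext j
        simp [Pi.single_apply, eq_comm]
      simpa [Matrix.vecMul, dotProduct, mul_comm, e] using this)
    exact LinearMap.pi_ext' fun i => LinearMap.ext_ring (congrFun h3 i)
  obtain ⟨v, hv⟩ := h2 c
  exact ⟨v, fun i => by rw [dP_apply, ← hv]; rfl⟩

/-- **L1**: an analytic relation on the zero set holds in the local ring. -/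
theorem L1 (f : ι → MvPolynomial σ ℂ) (a : σ → ℂ) (h0 : ∀ i, eval a (f i) = 0)
    (hs : ∀ c : ι → ℂ, ∃ v, ∀ i, dP a (f i) v = c i) {α : Type} [Fintype α] {g : MvPolynomial σ ℂ}
    {b : α → MvPolynomial σ ℂ} {h : α → (σ → ℂ) → ℂ} (hh : ∀ j, AnalyticAt ℂ (h j) a)
    (hg : ∀ᶠ z in 𝓝 a, (∀ i, eval z (f i) = 0) → eval z g = ∑ j, h j z * eval z (b j)) :
    ∃ s, eval a s ≠ 0 ∧ s * g ∈ Ideal.span (Set.range f) ⊔ Ideal.span (Set.range b) := by
  obtain ⟨d, T, ψ, -, hinj, hψ, hψ0, hk, hT, -⟩ := exists_par f a h0 hs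
  have ht : Tendsto ψ (𝓝 0) (𝓝 a) := hψ0 ▸ hψ.continuousAt.tendsto
  refine krp0 f a T hinj ψ hψ.continuousAt hψ0 hk hT (h := fun j x => h j (ψ x))
    (fun j => (hh j).comp_of_eq hψ hψ0) ?_
  filter_upwards [hk, ht.eventually hg] with x h1 h2 using h2 h1

/-- **L0**: a polynomial which vanishes near `a` on the zero set of polynomials with independent
differentials lies in the ideal they generate in the local ring. -/
theorem L0 (f : ι → MvPolynomial σ ℂ) (a : σ → ℂ) (h0 : ∀ i, eval a (f i) = 0)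
    (hs : ∀ c : ι → ℂ, ∃ v, ∀ i, dP a (f i) v = c i) {g : MvPolynomial σ ℂ}
    (hg : ∀ᶠ z in 𝓝 a, (∀ i, eval z (f i) = 0) → eval z g = 0) :
    ∃ s, eval a s ≠ 0 ∧ s * g ∈ Ideal.span (Set.range f) := by
  simpa [Set.range_eq_empty] using L1 f a h0 hs (α := Empty) (b := Empty.elim) (h := Empty.elim) (g := g) (·.elim)
    (by simpa using hg)

end Vale.Agent.P287T.Kx
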