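import Vale.Agent.P287T.Au.Defs
import Vale.Agent.P287T.Exit0
import Vale.Agent.P287Q.Pv.Chow
import Vale.Agent.P287T.Kx.L0

/-!
# The surface is a K3 surface: the interfaces
-/

open MvPolynomial Filter Topology

namespace Vale.Agent.P287T.Kx

open Vale.Agent.P287Q Vale.Agent.P287Q.Cub Vale.Agent.P287Z

variable {ν n : ℕ} {Z : Set (Fin ν → ℂ)}

/-- `σ` is the pull-back to the punctured cone `Z` of a holomorphic symplectic form on the surface. -/
structure Sym (Z : Set (Fin ν → ℂ))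
    (σ : (Fin ν → ℂ) → (Fin ν → ℂ) →L[ℂ] (Fin ν → ℂ) →L[ℂ] ℂ) : Prop where
  hol : ∀ z ∈ Z, ∃ s : (Fin ν → ℂ) → (Fin ν → ℂ) →L[ℂ] (Fin ν → ℂ) →L[ℂ] ℂ, AnalyticAt ℂ s z ∧
    ∀ᶠ y in 𝓝[Z] z, ∀ v ∈ tn Z y, ∀ w ∈ tn Z y, σ y v w = s y v w
  alt : ∀ z ∈ Z, ∀ v ∈ tn Z z, σ z v v = 0
  rad : ∀ z ∈ Z, ∀ v ∈ tn Z z, σ z z v = 0
  ne : ∀ z ∈ Z, ∃ v ∈ tn Z z, ∃ w ∈ tn Z z, σ z v w ≠ 0
  smul : ∀ z ∈ Z, ∀ c : ℂ, c ≠ 0 → ∀ v ∈ tn Z z, ∀ w ∈ tn Z z,
    σ (c • z) (c • v) (c • w) = σ z v w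

/-- `H¹(𝒪) = 0` for the standard cover: the cocycle `a i j / (y i * y j) ^ N` is the coboundary of
`b i / y i ^ (M + N)`. -/
def H1p (I : Ideal (MvPolynomial (Fin ν) ℂ)) : Prop :=
  ∀ (N : ℕ) (a : Fin ν → Fin ν → MvPolynomial (Fin ν) ℂ), (∀ i j, (a i j).IsHomogeneous (2 * N)) →
    (∀ i j k, X k ^ N * a i j + X i ^ N * a j k - X j ^ N * a i k ∈ I) →
    ∃ (M : ℕ) (b : Fin ν → MvPolynomial (Fin ν) ℂ), (∀ i, (b i).IsHomogeneous (M + N)) ∧
      ∀ i j, (X i * X j) ^ M * a i j - (X i ^ (M + N) * b j - X j ^ (M + N) * b i) ∈ I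

theorem mem_van {σ : Type} {A : Set (σ → ℂ)} {f : MvPolynomial σ ℂ} :
    f ∈ vanishingIdeal ℂ A ↔ ∀ z ∈ A, eval z f = 0 := by
  rw [mem_vanishingIdeal_iff]
  simp only [aeval_eq_eval]

theorem smul_mem (h : MC (π₀ (Fin ν)) Z) {z : Fin ν → ℂ} (hz : z ∈ Z) {c : ℂ} (hc : c ≠ 0) :
    c • z ∈ Z := h.inv (fun _ => c) (unit_iff.2 fun _ => hc) z hz

theorem ne_zero (h : MC (π₀ (Fin ν)) Z) {z : Fin ν → ℂ} (hz : z ∈ Z) : ∃ i, z i ≠ 0 :=
  (h.sub hz ()).imp fun _ a => a.2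

theorem eval_smul {σ : Type} {f : MvPolynomial σ ℂ} {d : ℕ} (hf : f.IsHomogeneous d) (c : ℂ)
    (z : σ → ℂ) : eval (c • z) f = c ^ d * eval z f := by
  rw [eval_eq, eval_eq, Finset.mul_sum]
  refine Finset.sum_congr rfl fun m hm => ?_
  have h1 : ∑ i ∈ m.support, m i = d := by
    have := hf (mem_support_iff.1 hm)
    rw [← this, ← Finsupp.degree_apply, Finsupp.degree_eq_weight_one]
    rfl
  simp only [Pi.smul_apply, smul_eq_mul, mul_pow, Finset.prod_mul_distrib,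
    Finset.prod_pow_eq_pow_sum, h1]
  ring

/-- The component of degree `d` of a polynomial which is homogeneous along a line. -/
theorem eval_comp {σ : Type} {f : MvPolynomial σ ℂ} {z : σ → ℂ} {d : ℕ} {a : ℂ}
    (h : ∀ c : ℂ, c ≠ 0 → eval (c • z) f = c ^ d * a) (m : ℕ) :
    eval z (homogeneousComponent m f) = if m = d then a else 0 := by
  let p : Polynomial ℂ := ∑ k ∈ Finset.range (f.totalDegree + 1),
    Polynomial.monomial k (eval z (homogeneousComponent k f))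
  have h1 : p = Polynomial.monomial d a := by
    refine Polynomial.eq_of_infinite_eval_eq _ _ ((Set.finite_singleton 0).infinite_compl.mono
      fun c hc => ?_)
    have := h c hc
    rw [← sum_homogeneousComponent f, map_sum] at this
    simp only [eval_smul (homogeneousComponent_isHomogeneous _ _)] at this
    simp only [p, Set.mem_ofPred_eq, Polynomial.eval_finsetSum, Polynomial.eval_monomial]
    simpa only [mul_comm] using this
  have h2 := congrArg (Polynomial.coeff · m) h1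
  simp only [p, Polynomial.finsetSum_coeff, Polynomial.coeff_monomial, Finset.sum_ite_eq',
    Finset.mem_range] at h2
  by_cases hm : m < f.totalDegree + 1
  · rw [if_pos hm] at h2
    rw [h2]
    exact if_congr eq_comm rfl rfl
  · rw [if_neg hm] at h2
    rw [homogeneousComponent_eq_zero _ _ (by omega), map_zero]
    exact h2.trans (if_congr eq_comm rfl rfl)

theorem isHom (h : MC (π₀ (Fin ν)) Z) : IsHom (vanishingIdeal ℂ Z) := fun f hf m =>
  mem_van.2 fun z hz => by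
    simpa using eval_comp (d := 0) (a := 0)
      (fun c hc => by rw [mem_van.1 hf _ (smul_mem h hz hc), mul_zero]) m

instance factI {W : Cy.S6} (C : Au.Cf W) : Fact (IsHom C.I) := ⟨isHom C.pv.toMC⟩

/-- **SYM**: the trace form of the family -/
def StSym : Prop := ∀ (W : Cy.S6), W.IsHomogeneous 3 → Cy.Sm W → ∀ C : Au.Cf W, ∃ σ, Sym C.Z σ

/-- **K3X** -/
def StK3 : Prop := ∀ (W : Cy.S6) (C : Au.Cf W), (∃ σ, Sym C.Z σ) → H1p C.I → Stm.IsK3 (PI C.I)

end Vale.Agent.P287T.Kx
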