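import Vale.Agent.P287T.Kx.St
import Vale.Agent.P287Q.Pv.Grp
import Vale.Agent.P299G40.GAlg

/-!
# Homogeneous holomorphic functions on the cone over a projective manifold are regular
-/

open MvPolynomial Filter Topology

namespace Vale.Agent.P287T.Kx

open Vale.Agent.P287Q Vale.Agent.P287Q.Cub Vale.Agent.P269.Holo

theorem nak' {R A : Type} [CommRing R] [Algebra ℂ R] [CommRing A] [Algebra R A] {u : A}
    (φ : R →ₐ[ℂ] ℂ) {g : Polynomial R} (hg : Polynomial.aeval u g = 0) (h0 : φ g.leadingCoeff ≠ 0)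
    {a : ℂ} {G : Polynomial R} (hG : Polynomial.aeval u G = 0)
    (h : G.map (φ : R →+* ℂ) = Polynomial.X - Polynomial.C a) :
    ∃ P Q : R, φ Q ≠ 0 ∧ Q • u = algebraMap R A P := by
  set c := g.leadingCoeff
  have h1 : ∀ i, φ (G.coeff i) = (Polynomial.X - Polynomial.C a).coeff i := fun i => by
    rw [← h, Polynomial.coeff_map]
    rfl
  obtain ⟨e, he⟩ : ∃ e, G.natDegree = e + 1 := Nat.exists_eq_add_one.2 (by
    refine Polynomial.le_natDegree_of_ne_zero (n := 1) fun h2 => ?_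
    have := h1 1
    simp [h2] at this)
  obtain ⟨P, Q, q1, q2⟩ := P299G40.nak (isIntegral_leadingCoeff_smul g u hg) (φ : R →+* ℂ)
    (c * algebraMap ℂ R a) (Polynomial.C (algebraMap ℂ R (φ c ^ e)⁻¹) * G.scaleRoots c)
    (by rw [map_mul, Algebra.smul_def, Polynomial.scaleRoots_aeval_eq_zero hG, mul_zero]) (by
      ext i
      rw [Polynomial.coeff_map, Polynomial.coeff_C_mul, Polynomial.coeff_scaleRoots, he]
      generalize hd : (φ : R →+* ℂ) (c * algebraMap ℂ R a) = d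
      obtain rfl : φ c * a = d := by rw [← hd]; simp
      simp only [map_mul φ, map_pow, RingHom.coe_coe, AlgHom.commutes, h1, Algebra.algebraMap_self,
        RingHom.id_apply]
      rcases i with _ | _ | i
      · simp only [Polynomial.coeff_sub, Polynomial.coeff_X_zero, Polynomial.coeff_C_zero,
          Nat.sub_zero]
        field_simp
        ring
      · simp [h0]
      · simp [Polynomial.coeff_X])
  refine ⟨P, Q * c, ?_, by rw [mul_smul, q2]⟩
  rw [map_mul, show φ Q = 1 from q1, one_mul]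
  exact h0

variable {ν n k : ℕ} {Z : Set (Fin ν → ℂ)} {u : (Fin ν → ℂ) → ℂ}

/-- the point `(z; t, s z^k)` -/
def gp (k : ℕ) (z : Fin ν → ℂ) (t s : ℂ) : Fin ν ⊕ Option (Fin ν) → ℂ :=
  Sum.elim z fun o => o.elim t fun i => s * z i ^ k

/-- the line through `(u z, z^k)` -/
def gl (k : ℕ) (u : (Fin ν → ℂ) → ℂ) (z : Fin ν → ℂ) : Set (Option (Fin ν) → ℂ) :=
  {p | ∃ c ≠ (0 : ℂ), p = c • gp k z (u z) 1 ∘ .inr}

/-- substitution -/
noncomputable def sb (k : ℕ) :
    MvPolynomial (Fin ν ⊕ Option (Fin ν)) ℂ →ₐ[ℂ] Polynomial (MvPolynomial (Fin ν) ℂ) :=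
  aeval (Sum.elim (fun j => Polynomial.C (X j)) fun o =>
    o.elim Polynomial.X fun j => Polynomial.C (X j ^ k))

theorem eval_sb (z : Fin ν → ℂ) (t : ℂ) (Q : MvPolynomial (Fin ν ⊕ Option (Fin ν)) ℂ) :
    ((sb k Q).map (eval z)).eval t = eval (gp k z t 1) Q := by
  induction Q using MvPolynomial.induction_on with
  | C a => simp [sb]
  | add p q hp hq => simp [hp, hq]
  | mul_X p j hp =>
    simp only [map_mul, Polynomial.map_mul, Polynomial.eval_mul, hp, eval_X]
    rcases j with j | _ | j <;> simp [sb, gp]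

theorem gp_ust {z : Fin ν → ℂ} {i : Fin ν} (hi : z i ≠ 0) {t s : ℂ} (h : t ≠ 0 ∨ s ≠ 0) :
    gp k z t s ∈ Ust (blP (Option (Fin ν)) (π₀ (Fin ν))) := by
  rintro (_ | _)
  · rcases h with h | h
    · exact ⟨.inr none, rfl, h⟩
    · exact ⟨.inr (some i), rfl, mul_ne_zero h (pow_ne_zero _ hi)⟩
  · exact ⟨.inl i, rfl, hi⟩

theorem top_coeff {b : ℤ} {Q : MvPolynomial (Fin ν ⊕ Option (Fin ν)) ℂ}
    (hQ : WHom (Sum.elim (fun _ _ => 0) fun _ (_ : Unit) => 1) (fun _ => b) Q) (z : Fin ν → ℂ) :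
    (sb k Q).natDegree ≤ b.toNat ∧ eval z ((sb k Q).coeff b.toNat) = eval (gp k z 1 0) Q := by
  have key : ∀ α ∈ Q.support, (sb k (monomial α (coeff α Q))).natDegree ≤ b.toNat ∧
      eval z ((sb k (monomial α (coeff α Q))).coeff b.toNat) =
        eval (gp k z 1 0) (monomial α (coeff α Q)) := fun α hα => by
    have h1 := hQ α hα ()
    simp only [Fintype.sum_sum_type, Sum.elim_inl, Sum.elim_inr, mul_zero, mul_one,
      Finset.sum_const_zero, zero_add, Fintype.sum_option] at h1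
    have h2 : b.toNat = α (.inr none) + ∑ i, α (.inr (some i)) := by
      rw [← h1]
      exact_mod_cast Int.toNat_natCast _
    have h3 : sb k (monomial α (coeff α Q)) = Polynomial.monomial (α (.inr none))
        (C (coeff α Q) * (∏ j, X j ^ α (.inl j)) * ∏ j, (X j ^ k) ^ α (.inr (some j))) := by
      rw [sb, aeval_monomial, Finsupp.prod_fintype _ _ (by simp), ← Polynomial.C_mul_X_pow_eq_monomial]
      simp only [Fintype.prod_sum_type, Fintype.prod_option, Sum.elim_inl, Sum.elim_inr,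
        Option.elim, map_mul, map_prod, map_pow, Polynomial.algebraMap_apply, algebraMap_eq]
      ring
    rw [h3, Polynomial.coeff_monomial, eval_monomial, Finsupp.prod_fintype _ _ (by simp)]
    refine ⟨(Polynomial.natDegree_monomial_le _).trans (by omega), ?_⟩
    simp only [Fintype.prod_sum_type, Fintype.prod_option, gp, Sum.elim_inl, Sum.elim_inr,
      Option.elim, one_pow, zero_mul, one_mul, Finset.prod_pow_eq_pow_sum]
    split_ifs with h4
    · have h5 : ∑ i, α (.inr (some i)) = 0 := by omega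
      simp [Finset.sum_eq_zero_iff.1 h5]
    · rw [zero_pow (by omega), map_zero, mul_zero, mul_zero]
  rw [← support_sum_monomial_coeff Q, map_sum, map_sum, Polynomial.finsetSum_coeff, map_sum]
  exact ⟨Polynomial.natDegree_sum_le_of_forall_le _ _ fun α hα => (key α hα).1,
    Finset.sum_congr rfl fun α hα => (key α hα).2⟩

section

variable (hZ : PV (π₀ (Fin ν)) Z n) (hu : ∀ z ∈ Z, HolOn Z u z)
  (hs : ∀ z ∈ Z, ∀ c : ℂ, c ≠ 0 → u (c • z) = c ^ k * u z)

include hZ hu hs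

theorem ln_gl : Ln (π₀ (Fin ν)) Z (gl k u) where
  loc y hy := by
    obtain ⟨Φ, h1, h2⟩ := hu y hy
    obtain ⟨i, hi⟩ := ne_zero hZ.toMC hy
    refine ⟨fun s => gp k s (Φ s) 1 ∘ .inr, analyticAt_pi_iff.2 ?_, fun e => ?_,
      h2.mono fun s a b p => by beta_reduce; rw [← a b]; rfl⟩
    · rintro (_ | j)
      · exact h1
      · exact analyticAt_const.mul ((an_cd y j).pow k)
    · exact mul_ne_zero one_ne_zero (pow_ne_zero k hi) (congrFun e (some i))
  inv t ht y hy := by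
    rintro _ ⟨c, hc, rfl⟩
    have h1 := unit_iff.1 ht ()
    refine ⟨c / t () ^ k, div_ne_zero hc (pow_ne_zero _ h1), funext ?_⟩
    rintro (_ | j)
    · have := hs y hy _ h1
      simp only [gp, Pi.smul_apply, Function.comp_apply, Sum.elim_inr, Option.elim, smul_eq_mul]
      rw [show scl (π₀ (Fin ν)) t y = t () • y from rfl, this]
      field_simp
    · simp only [gp, Pi.smul_apply, Function.comp_apply, Sum.elim_inr, Option.elim, smul_eq_mul,
        scl, mul_pow]
      field_simp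

/-- rational at every point -/
theorem ga_loc {z₀ : Fin ν → ℂ} (h₀ : z₀ ∈ Z) : ∃ P Q : MvPolynomial (Fin ν) ℂ, eval z₀ Q ≠ 0 ∧
    ∀ z ∈ Z, eval z Q * u z = eval z P := by
  classical
  have L := ln_gl hZ hu hs
  have hΓ := L.pv hZ
  obtain ⟨i, hi⟩ := ne_zero hZ.toMC h₀
  let : Algebra (MvPolynomial (Fin ν) ℂ) (Z → ℂ) := (RingHom.pi fun y : Z => eval y.1).toAlgebra
  let v : Z → ℂ := fun z => u z
  have a1 : ∀ (G : Polynomial (MvPolynomial (Fin ν) ℂ)) (y : Z),
      Polynomial.aeval v G y = (G.map (eval y.1)).eval (u y) := fun G y => by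
    rw [Polynomial.eval_map, Polynomial.aeval_def]
    exact Polynomial.hom_eval₂ G _ (Pi.evalRingHom (fun _ => ℂ) y) v
  have m : ∀ z ∈ Z, gp k z (u z) 1 ∈ grA Z (gl k u) := fun z hz =>
    ⟨hz, 1, one_ne_zero, (one_smul _ _).symm⟩
  have a2 : ∀ Q, (∀ x ∈ grA Z (gl k u), eval x Q = 0) → Polynomial.aeval v (sb k Q) = 0 :=
    fun Q hQ => funext fun y => by rw [a1, eval_sb]; exact hQ _ (m _ y.2)
  obtain ⟨g, g1, g2⟩ : ∃ g : Polynomial (MvPolynomial (Fin ν) ℂ), Polynomial.aeval v g = 0 ∧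
      eval z₀ g.leadingCoeff ≠ 0 := by
    obtain ⟨Q, q1, q2⟩ := Chow1.off hΓ (gp_ust (k := k) (t := 1) (s := 0) hi (.inl one_ne_zero)) (by
      rintro ⟨-, c, hc, e⟩
      have := congrFun e (some i)
      simp [gp, hc, hi] at this)
    let w : Fin ν ⊕ Option (Fin ν) → Unit → ℤ := Sum.elim (fun _ _ => 0) fun _ _ => 1
    have hw : TInv w (grA Z (gl k u)) := fun τ hτ y hy => by
      have e1 : tw w τ y ∘ .inl = y ∘ .inl := funext fun j => by simp [tw, w]
      have e2 : tw w τ y ∘ .inr = τ () • y ∘ .inr := funext fun j => by simp [tw, w]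
      exact ⟨e1 ▸ hy.1, e1 ▸ e2 ▸ L.smul hy.1 hy.2 (unit_iff.1 hτ ())⟩
    obtain ⟨b, hb⟩ : ∃ b, eval (gp k z₀ 1 0) (weightedHomogeneousComponent w b Q) ≠ 0 := by
      by_contra! c
      rw [← sum_weightedHomogeneousComponent w Q, finsum_eq_sum _
        (weightedHomogeneousComponent_finsupp (w := w) Q), map_sum] at q2
      exact q2 (Finset.sum_eq_zero fun b _ => c b)
    obtain ⟨t1, t2⟩ := top_coeff (k := k) (b := b ())
      (whom_iff.2 (weightedHomogeneousComponent_isWeightedHomogeneous (w := w) b Q)) z₀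
    rw [← t2] at hb
    refine ⟨_, a2 _ (Chow.comp_van hw q1 b), ?_⟩
    rwa [Polynomial.leadingCoeff, le_antisymm t1 (Polynomial.le_natDegree_of_ne_zero fun e =>
      hb (by rw [e, map_zero]))]
  obtain ⟨Q, q1, q2⟩ : ∃ Q, (∀ x ∈ grA Z (gl k u), eval x Q = 0) ∧
      ((sb k Q).map (eval z₀)).derivative.eval (u z₀) ≠ 0 := by
    by_contra! c
    let κ : Fin ν ⊕ Option (Fin ν) → ℂ := Pi.single (.inr none) 1
    have h1 := Chow1.jac hΓ (m _ h₀) (κ := κ) fun Q hQ => by
      have d : HasDerivAt (fun t => gp k z₀ t 1) κ (u z₀) := hasDerivAt_pi.2 (by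
        rintro (j | _ | j)
        · simpa [gp, κ] using hasDerivAt_const (u z₀) (z₀ j)
        · simpa [gp, κ] using hasDerivAt_id' (u z₀)
        · simpa [gp, κ] using hasDerivAt_const (u z₀) (z₀ j ^ k))
      have d1 := (an_eval Q (gp k z₀ (u z₀) 1)).differentiableAt.hasFDerivAt.comp_hasDerivAt
        (f := fun t => gp k z₀ t 1) (u z₀) d
      have d2 := ((sb k Q).map (eval z₀)).hasDerivAt (u z₀)
      simp only [eval_sb] at d2
      exact (d1.unique d2).trans (c Q hQ)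
    obtain ⟨a, ha⟩ := Submodule.mem_span_singleton.1
      ((L.tn_ker (m _ h₀) (hZ.mfd _ h₀) κ).2 ⟨h1, funext fun j => by simp [κ]⟩)
    have h2 := congrFun ha (.inr (some i))
    have h3 := congrFun ha (.inr none)
    simp [κ, gp, hi] at h2 h3
    simp [h2] at h3
  have sj : Function.Surjective (Polynomial.mapRingHom (eval z₀ : MvPolynomial (Fin ν) ℂ →+* ℂ)) :=
    Polynomial.map_surjective _ fun a => ⟨C a, eval_C a⟩
  have a3 : ∀ Q, (∀ x ∈ grA Z (gl k u), eval x Q = 0) → (sb k Q).map (eval z₀) ∈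
      (RingHom.ker (Polynomial.aeval v : Polynomial (MvPolynomial (Fin ν) ℂ) →ₐ[_] (Z → ℂ))).map
        (Polynomial.mapRingHom (eval z₀)) := fun Q hQ =>
    Ideal.mem_map_of_mem (Polynomial.mapRingHom (eval z₀)) (a2 Q hQ)
  obtain ⟨G, G1, G2⟩ := (Ideal.mem_map_iff_of_surjective _ sj).1 (P299G40.lin_mem _ (u z₀)
    (fun t ht => by
      by_contra e
      obtain ⟨P, p1, p2⟩ := Chow1.off hΓ (gp_ust (k := k) (t := t) (s := 1) hi (.inr one_ne_zero))
        (by
          rintro ⟨-, c, hc, e'⟩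
          have h2 := congrFun e' (some i)
          have h3 := congrFun e' none
          simp [gp, hi] at h2 h3
          exact e (by rw [h3, h2, one_mul]))
      exact p2 ((eval_sb _ _ _).symm.trans (ht _ (a3 P p1))))
    (a3 Q q1) ((eval_sb _ _ _).trans (q1 _ (m _ h₀))) q2)
  obtain ⟨P, Q', p1, p2⟩ := nak' (u := v) (aeval z₀) g1 (by rwa [aeval_eq_eval]) (a := u z₀) G1
    (by rw [← G2]; exact congrArg G.map (RingHom.ext fun f => congrFun (coe_aeval_eq_eval z₀ ▸ rfl) f))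
  refine ⟨P, Q', by rwa [aeval_eq_eval] at p1, fun z hz => ?_⟩
  rw [Algebra.smul_def] at p2
  exact congrFun p2 ⟨z, hz⟩

/-- **GAGA** -/
theorem gaga : ∃ N : ℕ, ∀ i, ∃ G : MvPolynomial (Fin ν) ℂ, G.IsHomogeneous (N + k) ∧
    ∀ z ∈ Z, eval z G = z i ^ N * u z := by
  let D : Ideal (MvPolynomial (Fin ν) ℂ) :=
    { carrier := {Q | ∃ P, ∀ z ∈ Z, eval z Q * u z = eval z P}
      add_mem' := fun ⟨P, a⟩ ⟨P', b⟩ => ⟨P + P', fun z hz => by
        rw [map_add, map_add, add_mul, a z hz, b z hz]⟩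
      zero_mem' := ⟨0, by simp⟩
      smul_mem' := fun c _ ⟨P, a⟩ => ⟨c * P, fun z hz => by
        rw [smul_eq_mul, map_mul, map_mul, mul_assoc, a z hz]⟩ }
  have h1 : ∀ i, ∃ N, X i ^ N ∈ D := fun i => by
    change X i ∈ D.radical
    rw [← vanishingIdeal_zeroLocus_eq_radical (K := ℂ)]
    refine mem_van.2 fun x hx => by_contra fun c => ?_
    have hx' : ∀ Q ∈ D, eval x Q = 0 := fun Q hQ => by simpa [aeval_eq_eval] using hx Q hQ
    have h2 : x ∈ Z := by_contra fun e =>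
      let ⟨P, a, b⟩ := Chow1.off hZ (fun _ => ⟨i, rfl, by simpa using c⟩) e
      b (hx' P ⟨0, fun z hz => by rw [a z hz, zero_mul, map_zero]⟩)
    obtain ⟨P, Q, a, b⟩ := ga_loc hZ hu hs h2
    exact a (hx' Q ⟨P, b⟩)
  choose N hN using h1
  refine ⟨∑ i, N i, fun i => ?_⟩
  obtain ⟨P, hP⟩ := D.pow_mem_of_pow_mem (hN i)
    (Finset.single_le_sum (fun _ _ => Nat.zero_le _) (Finset.mem_univ i))
  refine ⟨_, homogeneousComponent_isHomogeneous _ P, fun z hz => (eval_comp (fun c hc => ?_) _).trans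
    (if_pos rfl)⟩
  rw [← hP _ (smul_mem hZ.toMC hz hc), hs z hz c hc]
  simp only [map_pow, eval_X, Pi.smul_apply, smul_eq_mul]
  ring

end

end Vale.Agent.P287T.Kx
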