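import Vale.Agent.P287T.Kx.St

/-!
# Smooth affine varieties as sets, standard smooth charts
-/

open MvPolynomial Filter Topology

namespace Vale.Agent.P287T.Kx

open Vale.Agent.P287Q Vale.Agent.P287Q.Cub Vale.Agent.P269.Holo

variable {σ : Type} [Fintype σ] {n : ℕ}

theorem dP_eq (f : MvPolynomial σ ℂ) (a : σ → ℂ) : fderiv ℂ (fun z => eval z f) a = dP a f :=
  (hasFDerivAt_eval f a).fderiv

/-- `A` is a smooth affine variety of dimension `n`. -/
structure Aff (A : Set (σ → ℂ)) (n : ℕ) : Prop where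
  alg : ∀ z, (∀ f ∈ vanishingIdeal ℂ A, eval z f = 0) → z ∈ A
  mfd : ∀ a ∈ A, MfdAt A n a
  jac : ∀ a ∈ A, ∀ v, (∀ f ∈ vanishingIdeal ℂ A, dP a f v = 0) → v ∈ tn A a

theorem dP_tn {A : Set (σ → ℂ)} {a v : σ → ℂ} (h : MfdAt A n a) (hv : v ∈ tn A a)
    {f : MvPolynomial σ ℂ} (hf : f ∈ vanishingIdeal ℂ A) : dP a f v = 0 :=
  dP_eq f a ▸ fderiv_eq_zero h (analyticAt_eval f a) (.of_forall (mem_van.1 hf)) hv

theorem exists_minor {κ : Type} [Fintype κ] [DecidableEq κ] (M : σ → κ → ℂ)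
    (h : Submodule.span ℂ (Set.range M) = ⊤) :
    ∃ b : κ → σ, Function.Injective b ∧ (Matrix.of fun i j => M (b i) j).det ≠ 0 := by
  obtain ⟨κ', b, hb, h1, h2⟩ := exists_linearIndependent' ℂ M
  have : Finite κ' := Finite.of_injective b hb
  have : Fintype κ' := Fintype.ofFinite _
  have h3 := Module.finrank_eq_card_basis (Module.Basis.mk h2 (h1.trans h).ge)
  rw [Module.finrank_fintype_fun_eq_card] at h3
  let e := Fintype.equivOfCardEq h3
  refine ⟨b ∘ e, hb.comp e.injective, ((Matrix.isUnit_iff_isUnit_det _).1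
    (Matrix.linearIndependent_rows_iff_isUnit.1 (h2.comp e e.injective))).ne_zero⟩

/-- local equations -/
theorem Aff.eqs {A : Set (σ → ℂ)} (h : Aff A n) {a : σ → ℂ} (ha : a ∈ A) :
    ∃ (κ : Type) (_ : Fintype κ) (_ : DecidableEq κ) (f : κ → MvPolynomial σ ℂ) (b : κ → σ)
      (s : MvPolynomial σ ℂ), n + Fintype.card κ = Fintype.card σ ∧ Function.Injective b ∧
      (∀ j, f j ∈ vanishingIdeal ℂ A) ∧ eval a (Matrix.of fun i j => pderiv (b i) (f j)).det ≠ 0 ∧
      eval a s ≠ 0 ∧ ∀ g ∈ vanishingIdeal ℂ A, s * g ∈ Ideal.span (Set.range f) := by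
  classical
  obtain ⟨κ, c, hc, h1, h2⟩ := exists_linearIndependent' ℂ
    fun (g : vanishingIdeal ℂ A) k => eval a (pderiv k g.1)
  have : Finite κ := h2.finite
  have : Fintype κ := Fintype.ofFinite _
  let f : κ → MvPolynomial σ ℂ := fun j => c j
  have hs := surj_of_li f a h2
  have hk : ∀ v, (∀ j, dP a (f j) v = 0) → v ∈ tn A a := fun v hv => h.jac a ha v fun g hg => by
    have h3 : (fun k => eval a (pderiv k g)) ∈ Submodule.span ℂ _ :=
      h1.ge (Submodule.subset_span ⟨⟨g, hg⟩, rfl⟩)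
    obtain ⟨d, hd⟩ := (Submodule.mem_span_range_iff_exists_fun ℂ).1 h3
    rw [dP_apply]
    simp only [← congrFun hd, Finset.sum_apply, Pi.smul_apply, Function.comp_apply, smul_eq_mul,
      Finset.sum_mul, mul_assoc]
    rw [Finset.sum_comm]
    exact Finset.sum_eq_zero fun j _ => by rw [← Finset.mul_sum, ← dP_apply, hv j, mul_zero]
  let L : (σ → ℂ) →ₗ[ℂ] κ → ℂ := LinearMap.pi fun j => (dP a (f j) : (σ → ℂ) →ₗ[ℂ] ℂ)
  have hL : LinearMap.range L = ⊤ :=
    LinearMap.range_eq_top.2 fun c => (hs c).imp fun v hv => funext hv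
  have hd := LinearMap.finrank_range_add_finrank_ker L
  rw [hL, show LinearMap.ker L = tn A a from Submodule.ext fun v => ⟨fun e => hk v (congrFun e),
    fun e => funext fun j => dP_tn (h.mfd a ha) e (c j).2⟩, finrank_tn (h.mfd a ha)] at hd
  simp only [finrank_top, Module.finrank_fintype_fun_eq_card] at hd
  obtain ⟨b, hb, hb'⟩ := exists_minor (fun k j => eval a (pderiv k (f j))) (by
    refine eq_top_iff.2 fun w _ => ?_
    obtain ⟨v, hv⟩ := hs w
    exact (Submodule.mem_span_range_iff_exists_fun ℂ).2 ⟨v, funext fun j => by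
      simp [← hv j, dP_apply, mul_comm]⟩)
  obtain ⟨ψ, p, rfl⟩ := (h.mfd a ha).prm
  have hg : ∀ g ∈ vanishingIdeal ℂ A, ∃ s, eval (ψ 0) s ≠ 0 ∧ s * g ∈ Ideal.span (Set.range f) :=
    fun g hg => by
      simpa [Set.range_eq_empty] using krp f p.an p.imm (fun v hv => p.mem_tn.1 (hk v hv))
        (p.mem.mono fun x hx j => mem_van.1 (c j).2 _ hx) (α := Empty) (b := Empty.elim)
        (h := Empty.elim) (g := g) (·.elim) (by simpa using p.mem.mono fun x hx => mem_van.1 hg _ hx)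
  obtain ⟨G, hG⟩ := IsNoetherian.noetherian (vanishingIdeal ℂ A)
  choose! s s1 s2 using hg
  have m : ∀ g ∈ G, g ∈ vanishingIdeal ℂ A := fun g e => hG ▸ Submodule.subset_span e
  refine ⟨κ, inferInstance, inferInstance, f, b, ∏ g ∈ G, s g, by omega, hb, fun j => (c j).2, ?_, ?_, fun g e => ?_⟩
  · rwa [RingHom.map_det]
  · rw [map_prod]
    exact Finset.prod_ne_zero_iff.2 fun g e => s1 g (m g e)
  · rw [← hG] at e
    refine (Submodule.span_le (p := (Ideal.span (Set.range f)).colon {∏ g ∈ G, s g})).2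
      (fun g e => ?_) e |> Submodule.mem_colon_singleton.1 |> (mul_comm g _ ▸ ·)
    refine Submodule.mem_colon_singleton.2 ?_
    rw [← Finset.prod_erase_mul G s e, smul_eq_mul, mul_comm, mul_assoc]
    exact Ideal.mul_mem_left _ _ (s2 g (m g e))

/-- a standard smooth localization -/
theorem std_of {R T : Type} [CommRing R] [Algebra ℂ R] [CommRing T] [Algebra ℂ T] [Algebra R T]
    [IsScalarTower ℂ R T] (e : MvPolynomial σ ℂ →ₐ[ℂ] R) (he : Function.Surjective e) {κ : Type}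
    [Fintype κ] [DecidableEq κ] {f : κ → MvPolynomial σ ℂ} {b : κ → σ} {s : MvPolynomial σ ℂ}
    (hn : n + Fintype.card κ = Fintype.card σ) (hb : Function.Injective b) (hf : ∀ j, e (f j) = 0)
    (hs : ∀ g, e g = 0 → s * g ∈ Ideal.span (Set.range f))
    [IsLocalization.Away (e (s * (Matrix.of fun i j => pderiv (b i) (f j)).det)) T] :
    Algebra.IsStandardSmoothOfRelativeDimension n ℂ T := by
  set Δ := (Matrix.of fun i j => pderiv (b i) (f j)).det with hΔ
  let I := Ideal.span (Set.range f)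
  let l : (MvPolynomial σ ℂ ⧸ I) →ₐ[ℂ] R := Ideal.Quotient.liftₐ I e fun g hg =>
    (Ideal.span_le (I := RingHom.ker e)).2 (by rintro _ ⟨j, rfl⟩; exact hf j) hg
  let : Algebra (MvPolynomial σ ℂ ⧸ I) T := ((algebraMap R T).comp l.toRingHom).toAlgebra
  have hl : ∀ g, algebraMap (MvPolynomial σ ℂ ⧸ I) T (Ideal.Quotient.mk I g) =
    algebraMap R T (e g) := fun _ => rfl
  have := IsScalarTower.of_algebraMap_eq (R := ℂ) (S := MvPolynomial σ ℂ ⧸ I) (A := T) fun c =>
    (IsScalarTower.algebraMap_apply ℂ R T c).trans (congrArg (algebraMap R T) (l.commutes c).symm :)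
  have hu := IsLocalization.Away.algebraMap_isUnit (S := T) (e (s * Δ))
  have : IsLocalization.Away (Ideal.Quotient.mk I (s * Δ)) T := by
    refine .mk _ hu (fun t => ?_) fun x y hxy => ?_
    · obtain ⟨k, r, hr⟩ := IsLocalization.Away.surj (e (s * Δ)) t
      obtain ⟨g, rfl⟩ := he r
      exact ⟨k, Ideal.Quotient.mk I g, hr⟩
    · obtain ⟨x, rfl⟩ := Ideal.Quotient.mk_surjective x
      obtain ⟨y, rfl⟩ := Ideal.Quotient.mk_surjective y
      obtain ⟨k, hk⟩ := IsLocalization.Away.exists_of_eq (e (s * Δ)) hxy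
      refine ⟨k + 1, ?_⟩
      rw [← map_pow, ← map_mul, ← map_mul, Ideal.Quotient.eq]
      have h1 := I.mul_mem_left Δ (hs ((s * Δ) ^ k * x - (s * Δ) ^ k * y) (by
        rw [map_sub, map_mul, map_mul _ _ y, map_pow]
        exact sub_eq_zero.2 hk))
      refine (congrArg (· ∈ I) ?_).mp h1
      ring
  let P := Algebra.PreSubmersivePresentation.naive (R := ℂ) (v := f) b hb
  let Q := Algebra.PreSubmersivePresentation.localizationAway T (Ideal.Quotient.mk I (s * Δ))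
  refine Algebra.SubmersivePresentation.isStandardSmoothOfRelativeDimension ⟨Q.comp P, ?_⟩ ?_
  · rw [Algebra.PreSubmersivePresentation.comp_jacobian_eq_jacobian_smul_jacobian,
      Algebra.PreSubmersivePresentation.localizationAway_jacobian, Algebra.smul_def,
      P.jacobian_eq_jacobiMatrix_det]
    refine IsUnit.mul ?_ hu
    have h1 : P.jacobiMatrix.det = Δ := congrArg Matrix.det (Matrix.ext fun i j =>
      Algebra.PreSubmersivePresentation.jacobiMatrix_naive _ _ _ _ i j)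
    have h2 : algebraMap P.Ring (MvPolynomial σ ℂ ⧸ I) Δ = Ideal.Quotient.mk I Δ := by
      rw [P.algebraMap_apply]
      exact congr($(show aeval P.val = Ideal.Quotient.mkₐ ℂ I from algHom_ext fun _ => by
        simp [P, I]) Δ)
    rw [h1, h2, hl]
    rw [map_mul, map_mul] at hu
    exact isUnit_of_mul_isUnit_right hu
  · simp only [Algebra.Presentation.dimension, Nat.card_eq_fintype_card, Fintype.card_sum]
    omega

theorem Aff.top {A : Set (σ → ℂ)} (h : Aff A n) {R : Type} [CommRing R]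
    (e : MvPolynomial σ ℂ →+* R) (he : Function.Surjective e)
    (hk : ∀ f ∈ vanishingIdeal ℂ A, e f = 0) {J : Ideal R}
    (hJ : ∀ a ∈ A, ∃ f, eval a f ≠ 0 ∧ e f ∈ J) : J = ⊤ := by
  by_contra c
  obtain ⟨m, hm, h1⟩ := J.exists_le_maximal c
  obtain ⟨a, ha⟩ := isMaximal_iff_eq_vanishingIdeal_singleton.1 (Ideal.comap_isMaximal_of_surjective e he (K := m))
  have h2 : ∀ f, e f ∈ m → eval a f = 0 := fun f hf => mem_van.1 (ha.le hf) a rfl
  obtain ⟨f, f1, f2⟩ := hJ a (h.alg a fun f hf => h2 f (hk f hf ▸ m.zero_mem))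
  exact f1 (h2 f (h1 f2))

/-- The coordinate ring is locally standard smooth. -/
theorem Aff.locally {A : Set (σ → ℂ)} (h : Aff A n) {R : Type} [CommRing R] [Algebra ℂ R]
    (e : MvPolynomial σ ℂ →ₐ[ℂ] R) (he : Function.Surjective e)
    (hk : ∀ f, e f = 0 ↔ f ∈ vanishingIdeal ℂ A) :
    RingHom.Locally (RingHom.IsStandardSmoothOfRelativeDimension n) (algebraMap ℂ R) := by
  refine (RingHom.locally_iff_span_eq_top _).2 (h.top e.toRingHom he (fun f => (hk f).2) fun a ha => ?_)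
  obtain ⟨κ, _, _, f, b, s, h1, h2, h3, h4, h5, h6⟩ := h.eqs ha
  refine ⟨_, (map_mul _ _ _).trans_ne (mul_ne_zero h5 h4), Ideal.subset_span ?_⟩
  rw [Set.mem_ofPred_eq, ← IsScalarTower.algebraMap_eq,
    RingHom.isStandardSmoothOfRelativeDimension_algebraMap]
  exact std_of e he h1 h2 (fun j => (hk _).2 (h3 j)) fun g hg => h6 g ((hk g).1 hg)

variable {ν : ℕ} {Z : Set (Fin ν → ℂ)}

/-- the affine chart `z i = 1` -/
def Zi (Z : Set (Fin ν → ℂ)) (i : Fin ν) : Set (Fin ν → ℂ) := {z | z ∈ Z ∧ z i = 1}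

theorem mem_Zi (h : MC (π₀ (Fin ν)) Z) {z : Fin ν → ℂ} (hz : z ∈ Z) {i : Fin ν} (hi : z i ≠ 0) :
    (z i)⁻¹ • z ∈ Zi Z i := ⟨smul_mem h hz (inv_ne_zero hi), inv_mul_cancel₀ hi⟩

theorem tn_Zi (hZ : PV (π₀ (Fin ν)) Z n) {i : Fin ν} {a v : Fin ν → ℂ} (ha : a ∈ Zi Z i)
    (hv : v ∈ tn Z a) (h0 : v i = 0) : v ∈ tn (Zi Z i) a := by
  have hi : a i ≠ 0 := ha.2.trans_ne one_ne_zero
  have h1 := ((hasDerivAt_inv hi).comp_hasFDerivAt (f := fun z : Fin ν → ℂ => z i) a
    (ContinuousLinearMap.proj (R := ℂ) (φ := fun _ : Fin ν => ℂ) i).hasFDerivAt).fun_smul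
    (hasFDerivAt_id a)
  have h2 := fderiv_map_tn (A' := Zi Z i) (hZ.mfd a ha.1) (Φ := fun z => (z i)⁻¹ • z)
    ((((ContinuousLinearMap.proj (R := ℂ) (φ := fun _ : Fin ν => ℂ) i).analyticAt a).inv hi).smul analyticAt_id)
    (((continuous_apply i).continuousAt.eventually_ne hi).mono fun z b c => mem_Zi hZ.toMC c b) hv
  rw [show fderiv ℂ (fun z : Fin ν → ℂ => (z i)⁻¹ • z) a = _ from h1.fderiv] at h2
  simpa [ha.2, h0] using h2

theorem aff_Zi (hZ : PV (π₀ (Fin ν)) Z n) (i : Fin ν) : Aff (Zi Z i) n := by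
  have hX : X i - 1 ∈ vanishingIdeal ℂ (Zi Z i) := mem_van.2 fun z hz => by simp [hz.2]
  have hI : ∀ P : MvPolynomial (Fin ν) ℂ, (∀ x ∈ Z, eval x P = 0) → P ∈ vanishingIdeal ℂ (Zi Z i) :=
    fun P hP => mem_van.2 fun z hz => hP z hz.1
  refine ⟨fun z hz => ?_, fun a ha => ?_, fun a ha v hv => tn_Zi hZ ha
    (Chow1.jac hZ ha.1 fun P hP => dP_eq P a ▸ hv P (hI P hP)) ?_⟩
  · have h1 : z i = 1 := by simpa [sub_eq_zero] using hz _ hX
    refine ⟨by_contra fun c => ?_, h1⟩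
    obtain ⟨P, a, b⟩ := Chow1.off hZ (fun _ => ⟨i, rfl, h1.trans_ne one_ne_zero⟩) c
    exact b (hz P (hI P a))
  · refine (Chow1.slice hZ ha.1 ⟨fun _ => i, fun _ => rfl⟩ fun _ =>
      ha.2.trans_ne one_ne_zero).congr (.of_forall fun z => and_congr_right fun _ => ?_)
    simp [funext_iff, sub_eq_zero, ha.2]
  · have := hv _ hX
    rwa [dP_sub, dP_X, ← C_1, dP_C, sub_zero] at this

end Vale.Agent.P287T.Kx
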