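import Mathlib

/-!
# Alternating biderivations
-/

open MvPolynomial KaehlerDifferential

namespace Vale.Agent.P287T.Kx

variable {A T : Type} [CommRing A] [CommRing T]

/-- an alternating biderivation over the constants `φ` -/
structure BiD (φ : ℂ →+* A) (β : A → A → A) : Prop where
  add : ∀ f f' g, β (f + f') g = β f g + β f' g
  mul : ∀ f f' g, β (f * f') g = f * β f' g + f' * β f g
  cst : ∀ a g, β (φ a) g = 0
  alt : ∀ f g, β f g = - β g f

theorem zero_of_neg (φ : ℂ →+* A) {x : A} (h : x = - x) : x = 0 := by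
  have h1 : φ (1 / 2) * 2 = 1 := by
    rw [← map_ofNat φ 2, ← map_mul, ← map_one φ]
    congr 1
    norm_num
  linear_combination (- x) * h1 + φ (1 / 2) * h

namespace BiD

variable {φ : ℂ →+* A} {β β' : A → A → A}

theorem self (h : BiD φ β) (f : A) : β f f = 0 := zero_of_neg φ (h.alt f f)

theorem add' (h : BiD φ β) (f g g' : A) : β f (g + g') = β f g + β f g' := by
  rw [h.alt, h.add, h.alt f, h.alt f]
  ring

theorem mul' (h : BiD φ β) (f g g' : A) : β f (g * g') = g * β f g' + g' * β f g := by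
  rw [h.alt, h.mul, h.alt f, h.alt f]
  ring

theorem cst' (h : BiD φ β) (f : A) (a : ℂ) : β f (φ a) = 0 := by rw [h.alt, h.cst, neg_zero]

theorem sub (h : BiD φ β) (h' : BiD φ β') : BiD φ fun f g => β f g - β' f g where
  add f f' g := by rw [h.add, h'.add]; ring
  mul f f' g := by rw [h.mul, h'.mul]; ring
  cst a g := by rw [h.cst, h'.cst, sub_zero]
  alt f g := by rw [h.alt, h'.alt]; ring

theorem quot (h : BiD φ β) (u y y' : A) : u ^ 3 * β y y' =
    u * β (u * y) (u * y') - u * y' * β (u * y) u - u * y * β u (u * y') := by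
  simp only [h.mul, h.mul', h.self]
  ring

theorem gen {σ : Type} (h : BiD φ β) (ρ : MvPolynomial σ ℂ →+* A) (hρ : ∀ a, ρ (C a) = φ a)
    (N : Ideal A) (hN : ∀ b c, β (ρ (X b)) (ρ (X c)) ∈ N) (f g : MvPolynomial σ ℂ) :
    β (ρ f) (ρ g) ∈ N := by
  have key : ∀ t, (∀ b, β (ρ (X b)) t ∈ N) → ∀ f, β (ρ f) t ∈ N := fun t ht f => by
    induction f using MvPolynomial.induction_on with
    | C a => rw [hρ, h.cst]; exact N.zero_mem
    | add p q hp hq => rw [map_add, h.add]; exact N.add_mem hp hq
    | mul_X p b hp =>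
      rw [map_mul, h.mul]
      exact N.add_mem (N.mul_mem_left _ (ht b)) (N.mul_mem_left _ hp)
  refine key _ (fun b => ?_) f
  rw [h.alt]
  exact N.neg_mem (key _ (fun c => hN c b) g)

section

variable [Algebra ℂ A]

/-- the derivation in the second variable -/
noncomputable def der (h : BiD (algebraMap ℂ A) β) (f : A) : Derivation ℂ A A :=
  Derivation.mk'
    { toFun := β f
      map_add' := h.add' f
      map_smul' := fun a g => by
        rw [Algebra.smul_def, h.mul', h.cst', mul_zero, add_zero, RingHom.id_apply,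
          Algebra.smul_def] }
    (h.mul' f)

theorem form (h : BiD (algebraMap ℂ A) β) : ∃ B : LinearMap.BilinForm A Ω[A⁄ℂ], B.IsAlt ∧
    ∀ f g, β f g = B (D ℂ A f) (D ℂ A g) := by
  have e : ∀ f g, (h.der f).liftKaehlerDifferential (D ℂ A g) = β f g := fun f g =>
    (h.der f).liftKaehlerDifferential_comp_D g
  have x : ∀ {M : Type} [AddCommGroup M] [Module A M] [Module ℂ M] [IsScalarTower ℂ A M]
      (l l' : Ω[A⁄ℂ] →ₗ[A] M), (∀ g, l (D ℂ A g) = l' (D ℂ A g)) → l = l' := fun l l' hl =>
    Derivation.liftKaehlerDifferential_unique l l' (Derivation.ext hl)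
  let d : Derivation ℂ A (Ω[A⁄ℂ] →ₗ[A] A) := Derivation.mk'
    { toFun := fun f => (h.der f).liftKaehlerDifferential
      map_add' := fun f f' => x _ _ fun g => by rw [LinearMap.add_apply, e, e, e, h.add]
      map_smul' := fun a f => x _ _ fun g => by
        rw [LinearMap.smul_apply, e, e, Algebra.smul_def, h.mul, h.cst, mul_zero, add_zero,
          RingHom.id_apply, Algebra.smul_def] }
    fun f f' => x _ _ fun g => by
      change (h.der _).liftKaehlerDifferential _ = f • (h.der _).liftKaehlerDifferential _ +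
        f' • (h.der _).liftKaehlerDifferential _
      rw [e, e, e, h.mul, smul_eq_mul, smul_eq_mul]
  have e' : ∀ f g, d.liftKaehlerDifferential (D ℂ A f) (D ℂ A g) = β f g := fun f g => by
    rw [d.liftKaehlerDifferential_comp_D]
    exact e f g
  refine ⟨d.liftKaehlerDifferential, fun v => zero_of_neg (algebraMap ℂ A) ?_,
    fun f g => (e' f g).symm⟩
  have : d.liftKaehlerDifferential = - d.liftKaehlerDifferential.flip :=
    x _ _ fun f => x _ _ fun g => by
      rw [LinearMap.neg_apply, LinearMap.neg_apply, LinearMap.flip_apply, e', e', h.alt]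
  exact DFunLike.congr_fun (DFunLike.congr_fun this v) v

theorem of_form {B : LinearMap.BilinForm A Ω[A⁄ℂ]} (hB : B.IsAlt) :
    BiD (algebraMap ℂ A) fun f g => B (D ℂ A f) (D ℂ A g) where
  add f f' g := by rw [map_add, map_add, LinearMap.add_apply]
  mul f f' g := by simp
  cst a g := by simp
  alt f g := (hB.neg_eq _ _).symm

end

theorem ext (h : BiD φ β) {ρ : A →+* T} (hρ : ρ.Etale) :
    ∃ γ, BiD (ρ.comp φ) γ ∧ ∀ f g, γ (ρ f) (ρ g) = ρ (β f g) := by
  let _ := φ.toAlgebra
  let _ := ρ.toAlgebra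
  let _ := (ρ.comp φ).toAlgebra
  have : IsScalarTower ℂ A T := .of_algebraMap_eq' rfl
  have : Algebra.Etale A T := hρ
  obtain ⟨B, hB, e⟩ := form (A := A) h
  let t := (tensorKaehlerEquivOfFormallyEtale ℂ A T).symm
  have s : (B.baseChange T).IsAlt := by
    intro v
    refine zero_of_neg (ρ.comp φ) ?_
    have : B.baseChange T = - (B.baseChange T).flip := by
      ext a b
      simp [← neg_smul, hB.neg_eq]
    exact DFunLike.congr_fun (DFunLike.congr_fun this v) v
  refine ⟨_, of_form (A := T) (B := (B.baseChange T).comp t.toLinearMap t.toLinearMap)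
    (fun v => s (t v)), fun f g => ?_⟩
  have a := tensorKaehlerEquivOfFormallyEtale_symm_D_algebraMap ℂ A T
  change B.baseChange T (t (D ℂ T (algebraMap A T f))) (t (D ℂ T (algebraMap A T g))) = _
  rw [a, a, e, LinearMap.BilinForm.baseChange_tmul, mul_one, Algebra.smul_def, mul_one]
  rfl

theorem ind {γ : T → T → T} {ρ : A →+* T} (h : BiD (ρ.comp φ) γ) (hρ : ρ.Etale) (N : Ideal T)
    (hN : ∀ f g, γ (ρ f) (ρ g) ∈ N) (f g : T) : γ f g ∈ N := by
  let _ := φ.toAlgebra
  let _ := ρ.toAlgebra
  let _ := (ρ.comp φ).toAlgebra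
  have : IsScalarTower ℂ A T := .of_algebraMap_eq' rfl
  have : Algebra.Etale A T := hρ
  obtain ⟨B, -, e⟩ := form (A := T) h
  have key : ∀ l : Ω[T⁄ℂ] →ₗ[T] T, (∀ a, l (D ℂ T (ρ a)) ∈ N) → ∀ v, l v ∈ N := fun l hl v => by
    obtain ⟨x, rfl⟩ := (tensorKaehlerEquivOfFormallyEtale ℂ A T).surjective v
    induction x with
    | zero => simp
    | add x y hx hy => rw [map_add, map_add]; exact N.add_mem hx hy
    | tmul r w =>
      rw [tensorKaehlerEquivOfFormallyEtale_apply, mapBaseChange_tmul, map_smul]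
      refine N.mul_mem_left _ ?_
      have hw : w ∈ Submodule.span A (Set.range (D ℂ A)) := by
        rw [span_range_derivation]; trivial
      induction hw using Submodule.span_induction with
      | mem w hw => obtain ⟨a, rfl⟩ := hw; rw [map_D]; exact hl a
      | zero => simp
      | add x y _ _ hx hy => rw [map_add, map_add]; exact N.add_mem hx hy
      | smul a x _ hx =>
        rw [map_smul, ← algebraMap_smul T a, map_smul]
        exact N.mul_mem_left _ hx
  rw [e]
  exact key (B (D ℂ T f)) (fun a => key (LinearMap.flip B (D ℂ T (ρ a)))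
    (fun b => (e _ _ ▸ hN b a :)) (D ℂ T f)) _

end BiD

theorem exists_biD {σ : Type} [Fintype σ] (e : MvPolynomial σ ℂ →+* A) (hs : Function.Surjective e)
    (p : σ → σ → MvPolynomial σ ℂ) (alt : ∀ b c, e (p b c) = - e (p c b))
    (tan : ∀ f, e f = 0 → ∀ c, ∑ b, e (pderiv b f) * e (p b c) = 0) :
    ∃ β, BiD (e.comp C) β ∧ ∀ b c, β (e (X b)) (e (X c)) = e (p b c) := by
  classical
  let br : MvPolynomial σ ℂ → MvPolynomial σ ℂ → A := fun f g =>
    ∑ c, e (pderiv c g) * ∑ b, e (pderiv b f) * e (p b c)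
  have h1 : ∀ f g, br f g = - br g f := fun f g => by
    simp only [br, Finset.mul_sum, ← Finset.sum_neg_distrib]
    rw [Finset.sum_comm]
    refine Finset.sum_congr rfl fun b _ => Finset.sum_congr rfl fun c _ => ?_
    rw [alt]
    ring
  have h2 : ∀ f f' g, br (f + f') g = br f g + br f' g := fun f f' g => by
    simp only [br, map_add, add_mul, Finset.sum_add_distrib, mul_add]
  have h3 : ∀ f f' g, e f = e f' → br f g = br f' g := fun f f' g h => by
    have : br (f - f') g = 0 := by
      simp only [br, tan (f - f') (by rw [map_sub, h, sub_self]), mul_zero, Finset.sum_const_zero]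
    rw [← sub_add_cancel f f', h2, this, zero_add]
  choose s hs using hs
  have h4 : ∀ f g, br (s (e f)) (s (e g)) = br f g := fun f g => by
    rw [h3 _ f _ (hs _), h1, h3 _ g _ (hs _), ← h1]
  refine ⟨fun a a' => br (s a) (s a'), ⟨fun a a' g => ?_, fun a a' g => ?_, fun a g => ?_,
    fun a g => h1 _ _⟩, fun b c => ?_⟩
  · rw [← h2]
    exact h3 _ _ _ (by rw [map_add, hs, hs, hs])
  · rw [h3 _ (s a * s a') _ (by rw [map_mul, hs, hs, hs])]
    simp only [br, Derivation.leibniz, smul_eq_mul, map_add, map_mul, hs, add_mul, mul_add,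
      Finset.sum_add_distrib, Finset.mul_sum]
    congr 1 <;> exact Finset.sum_congr rfl fun _ _ => Finset.sum_congr rfl fun _ _ => by ring
  · exact (h3 _ (C a) _ (hs _)).trans (by simp [br])
  · beta_reduce
    rw [h4]
    simp [br, pderiv_X, Pi.single_apply, apply_ite e]

end Vale.Agent.P287T.Kx
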