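import Vale.Agent.P287T.Kx.Td
import Vale.Agent.P287T.Kx.Bd

/-!
# The bracket on all affine open sets
-/

open MvPolynomial CategoryTheory AlgebraicGeometry TopologicalSpace

namespace Vale.Agent.P287T.Kx

open Vale.Agent.P287Q Vale.Agent.P287Q.Cub Vale.Agent.P287Z Vale.Agent.P294Z

variable {Y : Scheme.{0}} {U V T : Y.Opens}

theorem etale_rf (hU : IsAffineOpen U) (hV : IsAffineOpen V) (h : V ≤ U) : (rf h).Etale :=
  Etale.etale_appLE (𝟙 Y) hU hV h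

/-- the constants -/
noncomputable def kp (κ : ℂ →+* Γ(Y, ⊤)) (U : Y.Opens) : ℂ →+* Γ(Y, U) := (rf le_top).comp κ

theorem kp_comp (κ : ℂ →+* Γ(Y, ⊤)) (h : V ≤ U) : (rf h).comp (kp κ U) = kp κ V :=
  RingHom.ext fun _ => rf_rf _ _ _

/-- `γ` extends `β`. -/
def Ex (h : V ≤ U) (β : Γ(Y, U) → Γ(Y, U) → Γ(Y, U)) (γ : Γ(Y, V) → Γ(Y, V) → Γ(Y, V)) : Prop :=
  ∀ f g, γ (rf h f) (rf h g) = rf h (β f g)

theorem Ex.trans {h : V ≤ U} {h' : T ≤ V} {β γ δ} (a : Ex h β γ) (b : Ex h' γ δ) :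
    Ex (h'.trans h) β δ := fun f g => by
  rw [← rf_rf h h', ← rf_rf h h', b, a, rf_rf]

variable {κ : ℂ →+* Γ(Y, ⊤)}

theorem ex_Ex (hU : IsAffineOpen U) (hV : IsAffineOpen V) (h : V ≤ U) {β} (b : BiD (kp κ U) β) :
    ∃ γ, BiD (kp κ V) γ ∧ Ex h β γ :=
  kp_comp κ h ▸ b.ext (etale_rf hU hV h)

theorem Ex.ind (hU : IsAffineOpen U) (hV : IsAffineOpen V) (h : V ≤ U) {γ} (b : BiD (kp κ V) γ)
    (N : Ideal Γ(Y, V)) (hN : ∀ f g, γ (rf h f) (rf h g) ∈ N) (f g : Γ(Y, V)) : γ f g ∈ N :=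
  BiD.ind (kp_comp κ h ▸ b) (etale_rf hU hV h) N hN f g

theorem Ex.uniq (hU : IsAffineOpen U) (hV : IsAffineOpen V) {h : V ≤ U} {β γ γ'}
    (b : BiD (kp κ V) γ) (b' : BiD (kp κ V) γ') (a : Ex h β γ) (a' : Ex h β γ') : γ = γ' :=
  funext₂ fun f g => sub_eq_zero.1 (Ex.ind hU hV h (b.sub b') ⊥
    (fun f g => sub_eq_zero.2 ((a f g).trans (a' f g).symm)) f g)

theorem glue_biD {ι : Type} (U : ι → Y.Opens) (aff : ∀ i, IsAffineOpen (U i)) (cov : ⨆ i, U i = ⊤)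
    (aff₂ : ∀ i j, IsAffineOpen (U i ⊓ U j)) (β : ∀ i, Γ(Y, U i) → Γ(Y, U i) → Γ(Y, U i))
    (hβ : ∀ i, BiD (kp κ (U i)) (β i)) (top : ∀ i, Ideal.span (Set.range (β i).uncurry) = ⊤)
    (cmp : ∀ i j γ, BiD (kp κ (U i ⊓ U j)) γ → Ex inf_le_left (β i) γ → Ex inf_le_right (β j) γ) :
    ∃ b : ∀ V : Y.Opens, Γ(Y, V) → Γ(Y, V) → Γ(Y, V), (∀ V, BiD (kp κ V) (b V)) ∧
      (∀ V, IsAffineOpen V → Ideal.span (Set.range (b V).uncurry) = ⊤) ∧
      ∀ V T (h : T ≤ V), Ex h (b V) (b T) := by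
  let Gd : ∀ T : Y.Opens, (Γ(Y, T) → Γ(Y, T) → Γ(Y, T)) → Prop := fun T γ =>
    IsAffineOpen T ∧ BiD (kp κ T) γ ∧ ∃ (i : ι) (h : T ≤ U i), Ex h (β i) γ
  have K : ∀ T T' γ γ' (h : T' ≤ T), Gd T γ → Gd T' γ' → Ex h γ γ' := by
    rintro T T' γ γ' h ⟨a, b, i, hi, e⟩ ⟨a', b', j, hj, e'⟩
    obtain ⟨δ, d1, d2⟩ := ex_Ex (aff i) (aff₂ i j) inf_le_left (hβ i)
    obtain ⟨ε, e1, e2⟩ := ex_Ex (aff₂ i j) a' (le_inf (h.trans hi) hj) d1
    obtain ⟨ζ, z1, z2⟩ := ex_Ex a a' h b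
    rwa [← Ex.uniq (aff j) a' e1 b' ((cmp i j δ d1 d2).trans e2) e',
      Ex.uniq (aff i) a' e1 z1 (d2.trans e2) (e.trans z2)]
  have E : ∀ (V : Y.Opens), ∀ x ∈ V, ∃ (T : Y.Opens) (_ : T ≤ V), x ∈ T ∧ ∃ γ, Gd T γ := by
    intro V x hx
    obtain ⟨i, hi⟩ := Opens.mem_iSup.1 (cov.ge (Opens.mem_top x))
    obtain ⟨T, a, b, c⟩ := exists_isAffineOpen_mem_and_subset (U := V ⊓ U i) ⟨hx, hi⟩
    have c' : T ≤ V ⊓ U i := c
    obtain ⟨γ, g1, g2⟩ := ex_Ex (aff i) a (c'.trans inf_le_right) (hβ i)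
    exact ⟨T, c'.trans inf_le_left, b, γ, a, g1, i, _, g2⟩
  have X : ∀ (V : Y.Opens) (r r' : Γ(Y, V)),
      (∀ T (h : T ≤ V) γ, Gd T γ → rf h r = rf h r') → r = r' := fun V r r' h =>
    sec_ext (E := OX Y) fun x hx => by
      obtain ⟨T, a, b, γ, c⟩ := E V x hx
      exact ⟨T, a, b, h T a γ c⟩
  have G : ∀ (V : Y.Opens) (f g : Γ(Y, V)), ∃ r : Γ(Y, V), ∀ T (h : T ≤ V) γ, Gd T γ →
      rf h r = γ (rf h f) (rf h g) := fun V f g => by
    have k : ∀ T (h : T ≤ V) γ, Gd T γ → ∀ T' (h' : T' ≤ T) γ', Gd T' γ' →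
        rf h' (γ (rf h f) (rf h g)) = γ' (rf (h'.trans h) f) (rf (h'.trans h) g) :=
      fun T h γ a T' h' γ' a' => by rw [← K T T' γ γ' h' a a', rf_rf, rf_rf]
    obtain ⟨t, ht⟩ := sec_glue' (E := OX Y) (U := V) (fun W hW (s : Γ(Y, W)) =>
      ∀ T (h : T ≤ W) γ, Gd T γ → rf h s = γ (rf (h.trans hW) f) (rf (h.trans hW) g))
      (fun W h T h' s a T' h'' γ b => (rf_rf h' h'' s).trans (a T' _ γ b))
      (fun W h s t a b => X W s t fun T h' γ c => (a T h' γ c).trans (b T h' γ c).symm)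
      fun x hx => by
        obtain ⟨T, a, b, γ, c⟩ := E V x hx
        exact ⟨T, a, b, _, k T a γ c⟩
    exact ⟨t, fun T h γ a => ht T h _ (k T h γ a)⟩
  choose b hb using G
  refine ⟨b, fun V => ⟨fun f f' g => X _ _ _ fun T h γ a => ?_,
    fun f f' g => X _ _ _ fun T h γ a => ?_, fun c g => X _ _ _ fun T h γ a => ?_,
    fun f g => X _ _ _ fun T h γ a => ?_⟩, fun V hV => ?_,
    fun V T h f g => X _ _ _ fun T' h' γ a => ?_⟩
  · simp only [map_add, hb V _ _ T h γ a, a.2.1.add]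
  · simp only [map_add, map_mul, hb V _ _ T h γ a, a.2.1.mul]
  · rw [hb V _ _ T h γ a, map_zero, ← RingHom.comp_apply, kp_comp, a.2.1.cst]
  · rw [map_neg, hb V _ _ T h γ a, hb V _ _ T h γ a, a.2.1.alt]
  · refine hV.iSup_basicOpen_eq_self_iff.1 (le_antisymm (iSup_le fun f => Y.basicOpen_le _)
      fun x hx => by_contra fun c => ?_)
    obtain ⟨T, h, hT, γ, a⟩ := E V x hx
    have m := Ex.ind hV a.1 h a.2.1 (RingHom.ker (Y.evaluation T x hT).hom) fun f g => by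
      rw [← hb V f g T h γ a]
      refine (Y.evaluation_eq_zero_iff_notMem_basicOpen x hT _).2 fun d => c ?_
      rw [basicOpen_rf] at d
      exact Opens.mem_iSup.2 ⟨⟨_, (f, g), rfl⟩, d.2⟩
    obtain ⟨-, -, i, hi, e⟩ := a
    have : Ideal.span (Set.range (β i).uncurry) ≤
        (RingHom.ker (Y.evaluation T x hT).hom).comap (rf hi) := Ideal.span_le.2 (by
      rintro _ ⟨⟨f, g⟩, rfl⟩
      exact (e f g ▸ m _ _ :))
    rw [top i, top_le_iff, Ideal.comap_eq_top_iff] at this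
    exact RingHom.ker_ne_top _ this
  · rw [hb T _ _ T' h' γ a, rf_rf, rf_rf, rf_rf, hb V _ _ T' _ γ a]

variable {ν n N : ℕ} {Z : Set (Fin ν → ℂ)} {G : Fin ν → Fin ν → Fin ν → MvPolynomial (Fin ν) ℂ}

theorem Tri.bracket (t : Tri Z N G) (hZ : PV (π₀ (Fin ν)) Z n)
    (c : Gr.Chart Y (vanishingIdeal ℂ Z)) :
    ∃ b : ∀ V : Y.Opens, Γ(Y, V) → Γ(Y, V) → Γ(Y, V), (∀ V, BiD (kp c.κ V) (b V)) ∧
      (∀ V, IsAffineOpen V → Ideal.span (Set.range (b V).uncurry) = ⊤) ∧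
      ∀ V T (h : T ≤ V), Ex h (b V) (b T) := by
  have k := ker_ev hZ.toMC c
  have e : ∀ i, (c.ev i).comp C = kp c.κ (c.U i) := fun i => RingHom.ext (c.evC i)
  have a : ∀ i j, IsAffineOpen (c.U i ⊓ c.U j) := fun i j => c.bo i j ▸ (c.aff i).basicOpen _
  choose β h1 h2 using fun i => exists_biD (c.ev i) (c.surj i) (G i)
    (fun b d => by
      rw [← add_eq_zero_iff_eq_neg, ← map_add, k]
      exact mem_van.2 fun z hz => by rw [map_add, t.alt i b d z hz, neg_add_cancel])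
    fun f hf d => by
      simp only [← map_mul, ← map_sum, k] at hf ⊢
      exact mem_van.2 fun z hz => by simpa only [map_sum, map_mul] using t.tan i d f hf z hz
  simp only [e] at h1
  refine glue_biD c.U c.aff c.cov a β h1 (fun i => (aff_Zi hZ i).top (c.ev i) (c.surj i)
    (fun f => (k i f).2) fun z hz => ?_) fun i j γ g1 g2 => ?_
  · obtain ⟨b, d, h⟩ := t.ne i z hz
    exact ⟨_, h, Ideal.subset_span ⟨(_, _), h2 i b d⟩⟩
  · obtain ⟨δ, d1, d2⟩ := ex_Ex (c.aff j) (a i j) inf_le_right (h1 j)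
    intro f g
    obtain ⟨f, rfl⟩ := c.surj j f
    obtain ⟨g, rfl⟩ := c.surj j g
    rw [← d2, ← sub_eq_zero]
    refine (g1.sub d1).gen ((rf inf_le_right).comp (c.ev j))
      (fun a => by rw [RingHom.comp_apply, c.evC, rf_rf]; rfl) ⊥ (fun b d => ?_) f g
    have q := g1.quot (rf inf_le_left (c.ev i (X j))) (rf inf_le_right (c.ev j (X b)))
      (rf inf_le_right (c.ev j (X d)))
    rw [← c.gl j i b inf_le_right inf_le_left, ← c.gl j i d inf_le_right inf_le_left, g2, g2, g2,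
      h2, h2, h2] at q
    have r : c.ev i (G j b d) = c.ev i (X j) ^ N * (c.ev i (X j) * c.ev i (G i b d) -
        c.ev i (X d) * c.ev i (G i b j) - c.ev i (X b) * c.ev i (G i j d)) := by
      rw [← sub_eq_zero]
      simp only [← map_mul, ← map_pow, ← map_sub, k]
      exact mem_van.2 fun z hz => by simpa [hz.2, sub_eq_zero] using t.rel i j b d z hz.1
    have s := c.gl_hg j i (V := c.U i ⊓ c.U j) inf_le_right inf_le_left
      (Gr.hg_of_hom (t.hom j b d))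
    rw [zpow_natCast, Units.val_pow_eq_pow_val, r] at s
    simp only [map_mul, map_sub, map_pow] at s
    rw [← q, ← mul_assoc, ← pow_add] at s
    refine sub_eq_zero.2 ?_
    rw [RingHom.comp_apply, RingHom.comp_apply, d2, h2]
    exact ((c.τ j i inf_le_right inf_le_left).isUnit.pow (N + 3)).mul_left_cancel s

theorem Tri.canon (t : Tri Z N G) (hZ : PV (π₀ (Fin ν)) Z n) [Y.Over (Spec (.of ℂ))]
    (c : Gr.Chart Y (vanishingIdeal ℂ Z)) (hκ : c.κ = cst0 Y) :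
    ∃ b : ∀ U : Y.affineOpens, OU Y U → OU Y U → OU Y U,
      (∀ U : Y.affineOpens, letI := (cst Y U).hom.toAlgebra; Stm.IsGen (b U)) ∧
      ∀ (U V : Y.affineOpens) (h : V.1 ≤ U.1) f g,
        b V (Stm.res h f) (Stm.res h g) = Stm.res h (b U f g) := by
  obtain ⟨b, h1, h2, h3⟩ := t.bracket hZ c
  rw [hκ] at h1
  refine ⟨fun U => b U.1, fun U => ?_, fun U V h => h3 U.1 V.1 h⟩
  let _ := alg U.1
  obtain ⟨B, b1, b2⟩ := BiD.form (A := Γ(Y, U.1)) (h1 U.1)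
  exact ⟨B, b1, b2, h2 U.1 U.2⟩

end Vale.Agent.P287T.Kx
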