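import Vale.Agent.P287T.Kx.Sm
import Vale.Agent.P287T.Kx.H0

/-!
# `H¹(𝒪) = 0`: extensions of `𝒪` by `𝒪` split
-/

open CategoryTheory AlgebraicGeometry MvPolynomial

namespace Vale.Agent.P287T.Kx

open Vale.Agent.P287Z Vale.Agent.P294Z

variable {ν : ℕ} {I : Ideal (MvPolynomial (Fin ν) ℂ)} {Y : Scheme.{0}} (c : Gr.Chart Y I)

theorem gl_hom (i j : Fin ν) {V : Y.Opens} (hi : V ≤ c.U i) (hj : V ≤ c.U j) {n : ℕ}
    {f : MvPolynomial (Fin ν) ℂ} (hf : f.IsHomogeneous n) :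
    rf hi (c.ev i f) = rf hi (c.ev i (X j)) ^ n * rf hj (c.ev j f) := by
  rw [c.gl_hg j i hj hi (Gr.hg_of_hom hf), zpow_natCast, Units.val_pow_eq_pow_val, c.τ_val]

theorem ex_rep (i j : Fin ν) (α : Γ(Y, c.U i ⊓ c.U j)) : ∃ n, ∀ N ≥ n,
    ∃ a : MvPolynomial (Fin ν) ℂ, a.IsHomogeneous (2 * N) ∧
      rf inf_le_left (c.ev i a) = rf inf_le_left (c.ev i (X j)) ^ N * α := by
  obtain ⟨n, r, h⟩ := fn_ex (c.aff i) (c.ev i (X j)) (rf (c.bo i j).le α)
  obtain ⟨d, f, h1, rfl⟩ := c.surj_hg i r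
  refine ⟨n + d, fun N hN => ⟨X i ^ (N + n - d) * (X j ^ (N - n) * f), ?_, ?_⟩⟩
  · have := ((isHomogeneous_X ℂ i).pow (N + n - d)).mul (((isHomogeneous_X ℂ j).pow (N - n)).mul
      (Gr.hom_of_hg h1))
    rwa [show 1 * (N + n - d) + (1 * (N - n) + d) = 2 * N by omega] at this
  · have := congrArg (rf (c.bo i j).ge) h
    simp only [map_mul, map_pow, rf_rf, rf_self] at this
    simp only [map_mul, map_pow, c.evX, one_pow, one_mul]
    rw [← this, ← mul_assoc, ← pow_add, Nat.sub_add_cancel (by omega)]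

theorem ex_kill (i j k : Fin ν) {d : ℕ} {f : MvPolynomial (Fin ν) ℂ} (hf : f.IsHomogeneous d)
    (h : rf (V := c.U i ⊓ c.U j ⊓ c.U k) (inf_le_left.trans inf_le_left) (c.ev i f) = 0) :
    ∃ n, ∀ m ≥ n, (X i * X j * X k) ^ m * f ∈ I := by
  have e : Y.basicOpen (c.ev i (X j * X k)) ≤ c.U i ⊓ c.U j ⊓ c.U k := by
    rw [map_mul, Y.basicOpen_mul, c.bo, c.bo]
    exact inf_le_inf_left _ inf_le_right
  obtain ⟨n, hn⟩ := P294Z.Chart.fn_un (c.aff i) (c.ev i (X j * X k)) (c.ev i f) (by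
    simpa only [rf_rf, map_zero] using congrArg (rf e) h)
  obtain ⟨l, hl⟩ := c.ker i _ ((X j * X k) ^ n * f) (Gr.hg_of_hom ((((isHomogeneous_X ℂ j).mul
    (isHomogeneous_X ℂ k)).pow n).mul hf)) (by rw [map_mul, map_pow, hn])
  refine ⟨n + l, fun m hm => ?_⟩
  obtain ⟨m, rfl⟩ := Nat.exists_eq_add_of_le hm
  have := I.mul_mem_left (X i ^ (n + m) * (X j * X k) ^ (l + m)) hl
  refine (congrArg (· ∈ I) ?_).mp this
  ring

theorem cech (h : H1p I) (α : ∀ j k, Γ(Y, c.U j ⊓ c.U k))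
    (hα : ∀ j k l (V : Y.Opens) (hj : V ≤ c.U j) (hk : V ≤ c.U k) (hl : V ≤ c.U l),
      rf (le_inf hj hk) (α j k) + rf (le_inf hk hl) (α k l) = rf (le_inf hj hl) (α j l)) :
    ∃ β : ∀ k, Γ(Y, c.U k), ∀ j k, α j k = rf inf_le_right (β k) - rf inf_le_left (β j) := by
  choose n hn using fun i j => ex_rep c i j (α i j)
  obtain ⟨N, hN⟩ := Finite.exists_le fun x : Fin ν × Fin ν => n x.1 x.2
  choose a ha hb using fun i j => hn i j N (hN (i, j))
  have hb' (i j) {V : Y.Opens} (hi : V ≤ c.U i) (hj : V ≤ c.U j) :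
      rf hi (c.ev i (a i j)) = rf hi (c.ev i (X j)) ^ N * rf (le_inf hi hj) (α i j) := by
    simpa only [map_mul, map_pow, rf_rf] using congrArg (rf (le_inf hi hj)) (hb i j)
  have hX (i) (k : ℕ) : (X i ^ k : MvPolynomial (Fin ν) ℂ).IsHomogeneous k := by
    simpa using (isHomogeneous_X ℂ i).pow k
  have hX2 (i j) (k : ℕ) : ((X i * X j) ^ k : MvPolynomial (Fin ν) ℂ).IsHomogeneous (2 * k) :=
    ((isHomogeneous_X ℂ i).mul (isHomogeneous_X ℂ j)).pow k
  choose m hm using fun i j k => ex_kill c i j k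
    (f := X k ^ N * a i j + X i ^ N * a j k - X j ^ N * a i k)
    ((((hX k N).mul (ha i j)).add ((hX i N).mul (ha j k))).sub ((hX j N).mul (ha i k))) (by
      have hj : c.U i ⊓ c.U j ⊓ c.U k ≤ c.U j := inf_le_left.trans inf_le_right
      simp only [map_sub, map_add, map_mul, map_pow, c.evX, one_pow, one_mul]
      rw [hb' i j _ hj, hb' i k _ inf_le_right, gl_hom c i j _ hj (ha j k), hb' j k _ inf_le_right,
        ← hα i j k _ (inf_le_left.trans inf_le_left) hj inf_le_right, c.gl j i k hj]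
      ring)
  obtain ⟨K, hK⟩ := Finite.exists_le fun x : Fin ν × Fin ν × Fin ν => m x.1 x.2.1 x.2.2
  have ha' (i j) : ((X i * X j) ^ K * a i j).IsHomogeneous (2 * (K + N)) := by
    rw [mul_add]
    exact (hX2 i j K).mul (ha i j)
  obtain ⟨M, b, h1, h2⟩ := h (K + N) _ ha' fun i j k => by
    refine (congrArg (· ∈ I) ?_).mp (hm i j k K (hK (i, j, k)))
    ring
  refine ⟨fun k => c.ev k (b k), fun i j => ?_⟩
  have h3 := congrArg (rf (V := c.U i ⊓ c.U j) inf_le_left) (c.evW i _ _ (Gr.hg_of_hom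
    (n := 2 * M + 2 * (K + N)) (((hX2 i j M).mul (ha' i j)).sub (by
      rw [← mul_add, two_mul]
      exact ((hX i _).mul (h1 j)).sub ((hX j _).mul (h1 i))))) (h2 i j))
  simp only [map_sub, map_mul, map_pow, c.evX, one_pow, one_mul, map_zero] at h3
  rw [hb, gl_hom c i j _ inf_le_right (h1 j)] at h3
  refine ((c.τ j i inf_le_right inf_le_left).isUnit.pow (M + (K + N))).mul_left_cancel ?_
  rw [c.τ_val]
  linear_combination h3

include c in
theorem split_of_h1p (h : H1p I) (E : Y.Modules) (i : OX Y ⟶ E) (p : E ⟶ OX Y) (w : i ≫ p = 0)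
    (hs : (ShortComplex.mk i p w).ShortExact) : IsSplitEpi p :=
  have := isLocallyNoetherian_of_affine_cover (S := fun i => ⟨c.U i, c.aff i⟩) c.cov c.noeth
  split_of_cech hs c.U c.aff c.cov (cech c h)

end Vale.Agent.P287T.Kx
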