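import Mathlib

/-!
# Analytic relations between algebraic functions hold in the local ring (Krull)
-/

open Filter Topology Asymptotics MvPolynomial

namespace Vale.Agent.P287T.Kx

variable {κ : Type} [Fintype κ]

theorem exists_poly_ml {k : ℕ} (p : ContinuousMultilinearMap ℂ (fun _ : Fin k => (κ → ℂ)) ℂ) :
    ∃ Q : MvPolynomial κ ℂ, ∀ y : κ → ℂ, eval y Q = p fun _ => y := by
  classical
  refine ⟨∑ f : Fin k → κ, C (p fun l => Pi.single (f l) (1 : ℂ)) * ∏ l, X (f l), fun y => ?_⟩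
  have hy : y = ∑ j, y j • (Pi.single j (1 : ℂ) : κ → ℂ) := by
    ext i
    simp [Finset.sum_apply, Pi.single_apply]
  have h1 : (p fun _ => y) = p fun _ => ∑ j, y j • (Pi.single j (1 : ℂ) : κ → ℂ) := by
    rw [← hy]
  rw [h1, ContinuousMultilinearMap.map_sum, map_sum]
  refine Finset.sum_congr rfl fun f _ => ?_
  rw [ContinuousMultilinearMap.map_smul_univ]
  simp [mul_comm]

theorem exists_taylor {h : (κ → ℂ) → ℂ} (hh : AnalyticAt ℂ h 0) (k : ℕ) :
    ∃ Q : MvPolynomial κ ℂ, (fun x => h x - eval x Q) =O[𝓝 0] fun x => ‖x‖ ^ k := by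
  obtain ⟨p, hp⟩ := hh
  have h1 := hp.isBigO_sub_partialSum_pow k
  simp only [zero_add] at h1
  choose Q hQ using fun i => exists_poly_ml (p i)
  refine ⟨∑ i ∈ Finset.range k, Q i, ?_⟩
  refine h1.congr_left fun x => ?_
  rw [FormalMultilinearSeries.partialSum, map_sum]
  simp only [hQ]

/-- A chart of `Spec (R ⧸ J)` at the point `φ`, whose coordinates generate the maximal ideal of the
local ring. -/
structure Ch {R : Type} [CommRing R] [Algebra ℂ R] (φ : R →ₐ[ℂ] ℂ) (J : Ideal R) (κ : Type)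
    [Fintype κ] where
  ψ : (κ → ℂ) → (R →ₐ[ℂ] ℂ)
  zero : ψ 0 = φ
  cont : ∀ a, ContinuousAt (fun x => ψ x a) 0
  t : κ → R
  coord : ∀ᶠ x in 𝓝 0, ∀ j, ψ x (t j) = x j
  kill : ∀ᶠ x in 𝓝 0, ∀ r ∈ J, ψ x r = 0
  gen : ∀ r, φ r = 0 → ∃ s, φ s ≠ 0 ∧ s * r ∈ J ⊔ Ideal.span (Set.range t)

namespace Ch

variable {R : Type} [CommRing R] [Algebra ℂ R] {φ : R →ₐ[ℂ] ℂ} {J : Ideal R} (c : Ch φ J κ)

theorem psi_aeval : ∀ᶠ x in 𝓝 0, ∀ Q : MvPolynomial κ ℂ, c.ψ x (aeval c.t Q) = eval x Q := by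
  filter_upwards [c.coord] with x hx Q
  have h : (c.ψ x).comp (aeval c.t) = aeval x := by
    refine algHom_ext fun j => ?_
    rw [AlgHom.comp_apply, aeval_X, aeval_X, hx j]
  have h2 := congrArg (fun g => g Q) h
  simpa [aeval_eq_eval] using h2

theorem coeff_zero {k : ℕ} {P : MvPolynomial κ R} (hP : P.IsHomogeneous k)
    (hO : (fun x => c.ψ x (eval c.t P)) =O[𝓝 0] fun x => ‖x‖ ^ (k + 1)) (m : κ →₀ ℕ) :
    φ (P.coeff m) = 0 := by
  have key : MvPolynomial.map (φ : R →+* ℂ) P = 0 := by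
    refine MvPolynomial.funext fun v => ?_
    rw [map_zero]
    have hline : Tendsto (fun s : ℂ => s • v) (𝓝[≠] 0) (𝓝 0) := by
      have : Tendsto (fun s : ℂ => s • v) (𝓝 0) (𝓝 ((0 : ℂ) • v)) :=
        (continuous_id.smul continuous_const).tendsto 0
      rw [zero_smul] at this
      exact this.mono_left nhdsWithin_le_nhds
    set L : ℂ → ℂ := fun s => ∑ m ∈ P.support, c.ψ (s • v) (P.coeff m) * ∏ i, v i ^ m i with hL
    have hex : ∀ᶠ s : ℂ in 𝓝[≠] 0, c.ψ (s • v) (eval c.t P) = s ^ k * L s := by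
      filter_upwards [hline.eventually c.coord] with s hs
      rw [eval_eq', map_sum, hL, Finset.mul_sum]
      refine Finset.sum_congr rfl fun m hm => ?_
      have hdeg : ∑ i, m i = k := by
        have h3 := hP (mem_support_iff.1 hm)
        rw [← h3, ← Finsupp.degree_eq_sum, Finsupp.degree_eq_weight_one]
        rfl
      rw [map_mul, map_prod]
      have h4 : ∏ i, c.ψ (s • v) (c.t i ^ m i) = s ^ k * ∏ i, v i ^ m i := by
        rw [← hdeg, ← Finset.prod_pow_eq_pow_sum, ← Finset.prod_mul_distrib]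
        refine Finset.prod_congr rfl fun i _ => ?_
        rw [map_pow, hs i, Pi.smul_apply, smul_eq_mul, mul_pow]
      rw [h4]
      ring
    have hlim : Tendsto L (𝓝[≠] 0) (𝓝 (eval v (MvPolynomial.map (φ : R →+* ℂ) P))) := by
      have h5 : eval v (MvPolynomial.map (φ : R →+* ℂ) P) =
          ∑ m ∈ P.support, φ (P.coeff m) * ∏ i, v i ^ m i := by
        rw [eval_map, eval₂_eq']
        rfl
      rw [h5]
      refine tendsto_finsetSum _ fun m _ => Tendsto.mul_const _ ?_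
      have h6 := (c.cont (P.coeff m)).tendsto.comp hline
      rw [c.zero] at h6
      exact h6
    have h1 := hO.comp_tendsto hline
    obtain ⟨C, hC⟩ := h1.bound
    have hzero : Tendsto L (𝓝[≠] 0) (𝓝 0) := by
      rw [tendsto_zero_iff_norm_tendsto_zero]
      have hb : ∀ᶠ s : ℂ in 𝓝[≠] 0, ‖L s‖ ≤ C * ‖v‖ ^ (k + 1) * ‖s‖ := by
        filter_upwards [hC, hex, self_mem_nhdsWithin] with s h7 h8 h9
        have hs : 0 < ‖s‖ := norm_pos_iff.2 h9
        simp only [Function.comp_apply] at h7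
        rw [h8, norm_mul, norm_pow, norm_pow, norm_norm, norm_smul, mul_pow] at h7
        have h10 : ‖s‖ ^ k * ‖L s‖ ≤ ‖s‖ ^ k * (C * ‖v‖ ^ (k + 1) * ‖s‖) := by
          refine h7.trans (le_of_eq ?_)
          ring
        exact le_of_mul_le_mul_left h10 (by positivity)
      have hz : Tendsto (fun s : ℂ => C * ‖v‖ ^ (k + 1) * ‖s‖) (𝓝[≠] 0) (𝓝 0) := by
        have : Tendsto (fun s : ℂ => C * ‖v‖ ^ (k + 1) * ‖s‖) (𝓝 0)
            (𝓝 (C * ‖v‖ ^ (k + 1) * ‖(0 : ℂ)‖)) :=
          (continuous_const.mul continuous_norm).tendsto 0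
        rw [norm_zero, mul_zero] at this
        exact this.mono_left nhdsWithin_le_nhds
      exact squeeze_zero' (Eventually.of_forall fun s => norm_nonneg _) hb hz
    exact tendsto_nhds_unique hlim hzero
  have h2 := congrArg (MvPolynomial.coeff m) key
  rw [coeff_map, MvPolynomial.coeff_zero] at h2
  exact h2

theorem span_le_ker : Ideal.span (Set.range c.t) ≤ RingHom.ker φ := by
  rw [Ideal.span_le]
  rintro _ ⟨j, rfl⟩
  rw [SetLike.mem_coe, RingHom.mem_ker]
  have h := c.coord.self_of_nhds j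
  rwa [c.zero] at h

theorem exists_mem_pow (k : ℕ) {g : R} (hg : (fun x => c.ψ x g) =O[𝓝 0] fun x => ‖x‖ ^ k) :
    ∃ s, φ s ≠ 0 ∧ s * g ∈ J ⊔ Ideal.span (Set.range c.t) ^ k := by
  classical
  induction k with
  | zero => exact ⟨1, by simp, by simp⟩
  | succ k ih =>
    have hle : (fun x : κ → ℂ => ‖x‖ ^ (k + 1)) =O[𝓝 0] fun x => ‖x‖ ^ k := by
      refine IsBigO.of_bound 1 ?_
      filter_upwards [Metric.ball_mem_nhds (0 : κ → ℂ) one_pos] with x hx
      rw [mem_ball_zero_iff] at hx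
      rw [norm_pow, norm_pow, norm_norm, one_mul, pow_succ]
      exact mul_le_of_le_one_right (by positivity) hx.le
    obtain ⟨s, hs, hsg⟩ := ih (hg.trans hle)
    obtain ⟨j, hj, q, hq, hjq⟩ := Submodule.mem_sup.1 hsg
    obtain ⟨P, hP, hPe⟩ := (Ideal.mem_span_pow_iff_exists_isHomogeneous c.t q).1 hq
    have hO : (fun x => c.ψ x (eval c.t P)) =O[𝓝 0] fun x => ‖x‖ ^ (k + 1) := by
      have h2 : (fun x => c.ψ x s) =O[𝓝 0] fun _ => (1 : ℝ) := (c.cont s).isBigO_one ℝ
      have h3 := h2.mul hg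
      simp only [one_mul] at h3
      refine h3.congr' ?_ EventuallyEq.rfl
      filter_upwards [c.kill] with x hx
      rw [← map_mul, ← hjq, map_add, hx j hj, zero_add, hPe]
    have hcoef : ∀ m, φ (P.coeff m) = 0 := fun m => c.coeff_zero hP hO m
    choose S hS hSm using fun m => c.gen _ (hcoef m)
    refine ⟨(∏ m ∈ P.support, S m) * s, ?_, ?_⟩
    · rw [map_mul, map_prod]
      exact mul_ne_zero (Finset.prod_ne_zero_iff.2 fun m _ => hS m) hs
    · rw [mul_assoc, ← hjq, mul_add]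
      refine add_mem (Ideal.mem_sup_left (J.mul_mem_left _ hj)) ?_
      rw [← hPe, eval_eq', Finset.mul_sum]
      refine Ideal.sum_mem _ fun m hm => ?_
      have h1 : ∏ i, c.t i ^ m i ∈ Ideal.span (Set.range c.t) ^ k := by
        rw [Ideal.mem_span_pow_iff_exists_isHomogeneous]
        refine ⟨monomial m 1, ?_, ?_⟩
        · refine isHomogeneous_monomial _ ?_
          have h3 := hP (mem_support_iff.1 hm)
          rw [← h3, Finsupp.degree_eq_weight_one]
          rfl
        · rw [eval_monomial, one_mul, Finsupp.prod_fintype]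
          simp
      rw [← mul_assoc, ← Finset.mul_prod_erase _ _ hm, mul_comm (S m), mul_assoc _ (S m), mul_assoc]
      refine Ideal.mul_mem_left _ _ ?_
      obtain ⟨a, ha, b, hb, hab⟩ := Submodule.mem_sup.1 (hSm m)
      rw [← hab, add_mul, pow_succ']
      exact add_mem (Ideal.mem_sup_left (J.mul_mem_right _ ha))
        (Ideal.mem_sup_right (Ideal.mul_mem_mul hb h1))

/-- An analytic relation `a = ∑ h i • b i` in the chart gives `a ∈ (b)` in the local ring. -/
theorem krull [IsNoetherianRing R] {ι : Type} [Fintype ι] {a : R} {b : ι → R}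
    {h : ι → (κ → ℂ) → ℂ} (hh : ∀ i, AnalyticAt ℂ (h i) 0)
    (hab : ∀ᶠ x in 𝓝 0, c.ψ x a = ∑ i, h i x * c.ψ x (b i)) :
    ∃ s : R, φ s ≠ 0 ∧ s * a ∈ J ⊔ Ideal.span (Set.range b) := by
  set p : Ideal R := RingHom.ker φ with hp
  set K : Ideal R := J ⊔ Ideal.span (Set.range b) with hK
  have key : ∀ k : ℕ, a ∈ K ⊔ p ^ k := by
    intro k
    choose Q hQ using fun i => exists_taylor (hh i) k
    have hO : (fun x => c.ψ x (a - ∑ i, aeval c.t (Q i) * b i)) =O[𝓝 0] fun x => ‖x‖ ^ k := by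
      have h2 : (fun x => ∑ i, (h i x - eval x (Q i)) * c.ψ x (b i)) =O[𝓝 0] fun x => ‖x‖ ^ k := by
        refine IsBigO.fun_sum fun i _ => ?_
        have h1 : (fun x => c.ψ x (b i)) =O[𝓝 0] fun _ => (1 : ℝ) := (c.cont (b i)).isBigO_one ℝ
        simpa only [mul_one] using (hQ i).mul h1
      refine h2.congr' ?_ EventuallyEq.rfl
      filter_upwards [hab, c.psi_aeval] with x hx hxb
      rw [map_sub, map_sum, hx, ← Finset.sum_sub_distrib]
      refine Finset.sum_congr rfl fun i _ => ?_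
      rw [map_mul, hxb]
      ring
    obtain ⟨s, hs, hsm⟩ := c.exists_mem_pow k hO
    have h1 : s * a ∈ K ⊔ p ^ k := by
      have h2 : s * a = s * (a - ∑ i, aeval c.t (Q i) * b i) + s * ∑ i, aeval c.t (Q i) * b i := by
        ring
      rw [h2]
      refine add_mem ((sup_le_sup (le_sup_left : J ≤ K)
        (Ideal.pow_right_mono c.span_le_ker k)) hsm) (Ideal.mem_sup_left (K.mul_mem_left _ ?_))
      exact Ideal.sum_mem _ fun i _ =>
        K.mul_mem_left _ (Ideal.mem_sup_right (Ideal.subset_span ⟨i, rfl⟩))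
    have h3 : Ideal.span {s} ⊔ p = ⊤ := by
      rw [Ideal.eq_top_iff_one]
      have h4 : (1 : R) = algebraMap ℂ R (φ s)⁻¹ * s + (1 - algebraMap ℂ R (φ s)⁻¹ * s) := by ring
      rw [h4]
      refine add_mem (Ideal.mem_sup_left (Ideal.mul_mem_left _ _ (Ideal.mem_span_singleton_self s)))
        (Ideal.mem_sup_right ?_)
      rw [hp, RingHom.mem_ker, map_sub, map_mul, AlgHom.commutes, map_one]
      simp [hs]
    have h5 := Ideal.sup_pow_eq_top (n := k) h3
    obtain ⟨u, hu, v, hv, huv⟩ := Submodule.mem_sup.1 ((Ideal.eq_top_iff_one _).1 h5)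
    obtain ⟨w, rfl⟩ := Ideal.mem_span_singleton'.1 hu
    have h6 : a = w * (s * a) + v * a := by rw [← mul_assoc, ← add_mul, huv, one_mul]
    rw [h6]
    exact add_mem (Ideal.mul_mem_left _ _ h1) (Ideal.mem_sup_right (Ideal.mul_mem_right _ _ hv))
  have hmem : K.mkQ a ∈ (⨅ i : ℕ, p ^ i • ⊤ : Submodule R (R ⧸ K)) := by
    refine (Submodule.mem_iInf _).2 fun k => ?_
    obtain ⟨u, hu, v, hv, huv⟩ := Submodule.mem_sup.1 (key k)
    have h1 : K.mkQ a = v • K.mkQ 1 := by
      rw [← map_smul, smul_eq_mul, mul_one, ← huv, map_add, Submodule.mkQ_apply,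
        (Submodule.Quotient.mk_eq_zero _).2 hu, zero_add]
    rw [h1]
    exact Submodule.smul_mem_smul hv trivial
  obtain ⟨r, hr⟩ := (p.mem_iInf_smul_pow_eq_bot_iff _).1 hmem
  refine ⟨1 - r, ?_, ?_⟩
  · rw [map_sub, map_one, (RingHom.mem_ker.1 r.2 : φ r = 0), sub_zero]
    exact one_ne_zero
  · rw [← Submodule.Quotient.mk_eq_zero, ← Submodule.mkQ_apply, sub_mul, one_mul, map_sub,
      ← smul_eq_mul, map_smul, hr, sub_self]

end Ch

end Vale.Agent.P287T.Kx
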