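import Vale.Agent.P287T.Kx.Td

/-!
# The inverse of the symplectic form in coordinates
-/

open MvPolynomial Filter Topology Module

namespace Vale.Agent.P287T.Kx

open Vale.Agent.P287Q Vale.Agent.P287Q.Cub Vale.Agent.P269.Holo

variable {ν : ℕ} {Z : Set (Fin ν → ℂ)} {σ : (Fin ν → ℂ) → (Fin ν → ℂ) →L[ℂ] (Fin ν → ℂ) →L[ℂ] ℂ}
  {z v w : Fin ν → ℂ}

/-- The minors of order three of the vectors `z, v, w`. -/
def d3 (z v w : Fin ν → ℂ) (a b c : Fin ν) : ℂ :=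
  z a * (v b * w c - v c * w b) - z b * (v a * w c - v c * w a) + z c * (v a * w b - v b * w a)

theorem Sym.anti (h : Sym Z σ) (hz : z ∈ Z) (hv : v ∈ tn Z z) (hw : w ∈ tn Z z) :
    σ z w v = -σ z v w := by
  have := h.alt z hz _ (add_mem hv hw)
  simp only [map_add, add_apply, h.alt z hz v hv, h.alt z hz w hw] at this
  linear_combination this

theorem self_tn (hZ : PV (π₀ (Fin ν)) Z 2) (hz : z ∈ Z) : z ∈ tn Z z := by
  simpa only [scl_one] using hZ.toMC.orbit_mem_tn hz 1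

theorem Sym.span3 (h : Sym Z σ) (hZ : PV (π₀ (Fin ν)) Z 2) (hz : z ∈ Z) (hv : v ∈ tn Z z)
    (hw : w ∈ tn Z z) (h0 : σ z v w ≠ 0) {u : Fin ν → ℂ} (hu : u ∈ tn Z z) :
    ∃ α β γ : ℂ, u = α • z + β • v + γ • w := by
  have hzz := self_tn hZ hz
  have li : LinearIndependent ℂ ![z, v, w] := by
    refine Fintype.linearIndependent_iff.2 fun g hg => ?_
    simp only [Fin.sum_univ_three, Matrix.cons_val_zero, Matrix.cons_val_one, Matrix.cons_val] at hg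
    have h1 := congrArg (fun u => σ z u w) hg
    have h2 := congrArg (fun u => σ z u v) hg
    simp only [map_add, map_smul, add_apply, smul_apply,
      h.rad z hz w hw, h.rad z hz v hv, h.alt z hz w hw, h.alt z hz v hv, h.anti hz hv hw,
      smul_eq_mul, mul_zero, zero_add, add_zero, map_zero, zero_apply, mul_neg,
      neg_eq_zero, mul_eq_zero, h0, or_false] at h1 h2
    obtain ⟨i, hi⟩ := ne_zero hZ.toMC hz
    rw [h1, h2, zero_smul, zero_smul, add_zero, add_zero] at hg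
    have h3 : g 0 = 0 := (mul_eq_zero.1 (congrFun hg i)).resolve_right hi
    intro i
    fin_cases i
    exacts [h3, h1, h2]
  have e : Submodule.span ℂ (Set.range ![z, v, w]) = tn Z z := by
    refine Submodule.eq_of_le_of_finrank_eq (Submodule.span_le.2 ?_) ?_
    · rintro _ ⟨i, rfl⟩
      fin_cases i
      exacts [hzz, hv, hw]
    · rw [finrank_span_eq_card li, finrank_tn (hZ.mfd z hz)]
      simp
  rw [← e, Submodule.mem_span_range_iff_exists_fun] at hu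
  obtain ⟨c, rfl⟩ := hu
  exact ⟨c 0, c 1, c 2, by simp [Fin.sum_univ_three]⟩

theorem Sym.indep (h : Sym Z σ) (hZ : PV (π₀ (Fin ν)) Z 2) (hz : z ∈ Z) (hv : v ∈ tn Z z)
    (hw : w ∈ tn Z z) (h0 : σ z v w ≠ 0) {v' w' : Fin ν → ℂ} (hv' : v' ∈ tn Z z)
    (hw' : w' ∈ tn Z z) (h0' : σ z v' w' ≠ 0) (a b c : Fin ν) :
    d3 z v w a b c / σ z v w = d3 z v' w' a b c / σ z v' w' := by
  rw [div_eq_div_iff h0 h0']
  obtain ⟨α, β, γ, rfl⟩ := h.span3 hZ hz hv hw h0 hv'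
  obtain ⟨α', β', γ', rfl⟩ := h.span3 hZ hz hv hw h0 hw'
  have hzz := self_tn hZ hz
  simp only [map_add, map_smul, add_apply, smul_apply,
    h.rad z hz w hw, h.rad z hz v hv, h.rad z hz z hzz, h.alt z hz w hw, h.alt z hz v hv,
    h.anti hz hv hw, h.anti hz hzz hv, h.anti hz hzz hw, smul_eq_mul, d3, Pi.add_apply,
    Pi.smul_apply]
  ring

theorem an_app {X E F : Type} [NormedAddCommGroup X] [NormedSpace ℂ X] [NormedAddCommGroup E]
    [NormedSpace ℂ E] [NormedAddCommGroup F] [NormedSpace ℂ F] {f : X → E →L[ℂ] F} {g : X → E}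
    {x : X} (hf : AnalyticAt ℂ f x) (hg : AnalyticAt ℂ g x) :
    AnalyticAt ℂ (fun x => f x (g x)) x :=
  ((ContinuousLinearMap.id ℂ (E →L[ℂ] F)).analyticAt_bilinear (f x, g x)).comp₂ hf hg

/-- The tensor. -/
theorem Sym.exists_P (h : Sym Z σ) (hZ : PV (π₀ (Fin ν)) Z 2) :
    ∃ P : Fin ν → Fin ν → Fin ν → (Fin ν → ℂ) → ℂ,
      (∀ z ∈ Z, ∀ v ∈ tn Z z, ∀ w ∈ tn Z z, σ z v w ≠ 0 → ∀ a b c,
        P a b c z = d3 z v w a b c / σ z v w) ∧
      (∀ a b c, ∀ z ∈ Z, HolOn Z (P a b c) z) ∧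
      ∀ a b c, ∀ z ∈ Z, ∀ t : ℂ, t ≠ 0 → P a b c (t • z) = t ^ 3 * P a b c z := by
  choose! v hv w hw h0 using h.ne
  have key : ∀ z ∈ Z, ∀ v' ∈ tn Z z, ∀ w' ∈ tn Z z, σ z v' w' ≠ 0 → ∀ a b c,
      d3 z (v z) (w z) a b c / σ z (v z) (w z) = d3 z v' w' a b c / σ z v' w' :=
    fun z hz v' hv' w' hw' k => h.indep hZ hz (hv z hz) (hw z hz) (h0 z hz) hv' hw' k
  refine ⟨fun a b c z => d3 z (v z) (w z) a b c / σ z (v z) (w z), key, fun a b c z hz => ?_,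
    fun a b c z hz t ht => ?_⟩
  · obtain ⟨ψ, hψ, rfl⟩ := (hZ.mfd z hz).prm
    obtain ⟨u1, e1⟩ := hψ.mem_tn.1 (hv _ hz)
    obtain ⟨u2, e2⟩ := hψ.mem_tn.1 (hw _ hz)
    obtain ⟨s, hs, k⟩ := h.hol _ hz
    have k1 := hψ.ev.2 (eventually_nhdsWithin_iff.1 k)
    have a1 : AnalyticAt ℂ (fun x => fderiv ℂ ψ x u1) 0 := an_app hψ.an.fderiv analyticAt_const
    have a2 : AnalyticAt ℂ (fun x => fderiv ℂ ψ x u2) 0 := an_app hψ.an.fderiv analyticAt_const
    have a3 : AnalyticAt ℂ (fun x => s (ψ x) (fderiv ℂ ψ x u1) (fderiv ℂ ψ x u2)) 0 :=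
      an_app (an_app (hs.comp hψ.an) a1) a2
    have a4 : s (ψ 0) (fderiv ℂ ψ 0 u1) (fderiv ℂ ψ 0 u2) ≠ 0 := by
      rw [e1, e2, ← k1.self_of_nhds _ (hv _ hz) _ (hw _ hz)]
      exact h0 _ hz
    have b0 := analyticAt_pi_iff.1 hψ.an
    have b1 := analyticAt_pi_iff.1 a1
    have b2 := analyticAt_pi_iff.1 a2
    have a5 : AnalyticAt ℂ (fun x => d3 (ψ x) (fderiv ℂ ψ x u1) (fderiv ℂ ψ x u2) a b c) 0 :=
      (((b0 a).mul (((b1 b).mul (b2 c)).sub ((b1 c).mul (b2 b)))).sub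
        ((b0 b).mul (((b1 a).mul (b2 c)).sub ((b1 c).mul (b2 a))))).add
        ((b0 c).mul (((b1 a).mul (b2 b)).sub ((b1 b).mul (b2 a))))
    refine hψ.holOn_iff.2 ((a5.div a3 a4).congr ?_)
    filter_upwards [hψ.eventually, k1, a3.continuousAt.eventually_ne a4] with x p1 p2 p3
    have t1 := p1.mem_tn.2 ⟨u1, rfl⟩
    have t2 := p1.mem_tn.2 ⟨u2, rfl⟩
    rw [← p2 _ t1 _ t2] at p3
    rw [key _ p1.mem0 _ t1 _ t2 p3, p2 _ t1 _ t2]
    rfl
  · have m : ∀ u ∈ tn Z z, t • u ∈ tn Z (t • z) := fun u hu =>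
      (hZ.toMC.tn_scl (t := fun _ => t) (unit_iff.2 fun _ => ht) _).2 ⟨u, hu, rfl⟩
    have e := h.smul z hz t ht _ (hv z hz) _ (hw z hz)
    beta_reduce
    rw [key _ (smul_mem hZ.toMC hz ht) _ (m _ (hv z hz)) _ (m _ (hw z hz)) (e ▸ h0 z hz), e]
    simp only [d3, Pi.smul_apply, smul_eq_mul]
    ring

theorem Sym.ne_i (h : Sym Z σ) (hZ : PV (π₀ (Fin ν)) Z 2) {i : Fin ν} (hz : z ∈ Zi Z i) :
    ∃ v ∈ tn Z z, ∃ w ∈ tn Z z, σ z v w ≠ 0 ∧ v i = 0 ∧ w i = 0 := by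
  obtain ⟨v, hv, w, hw, h0⟩ := h.ne z hz.1
  have hzz := self_tn hZ hz.1
  refine ⟨v - v i • z, sub_mem hv (Submodule.smul_mem _ _ hzz), w - w i • z,
    sub_mem hw (Submodule.smul_mem _ _ hzz), ?_, by simp [hz.2], by simp [hz.2]⟩
  simpa [h.rad z hz.1 w hw, h.rad z hz.1 z hzz, h.anti hz.1 hzz hv, h.rad z hz.1 v hv] using h0

/-- **X4a** -/
theorem stTri : StTri := by
  rintro ν Z hZ ⟨σ, h⟩
  obtain ⟨P, p1, p2, p3⟩ := h.exists_P hZ
  choose N G g1 g2 using fun q : Fin ν × Fin ν × Fin ν =>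
    gaga hZ (p2 q.1 q.2.1 q.2.2) (p3 q.1 q.2.1 q.2.2)
  have le : ∀ q, N q ≤ Finset.univ.sup N := fun q => Finset.le_sup (Finset.mem_univ q)
  generalize Finset.univ.sup N = M at le
  have ev : ∀ i b c, ∀ z ∈ Z, eval z (X i ^ (M - N (i, b, c)) * G (i, b, c) i) =
      z i ^ M * P i b c z := fun i b c z hz => by
    rw [map_mul, map_pow, eval_X, g2 _ _ z hz, ← mul_assoc, ← pow_add, Nat.sub_add_cancel (le _)]
  refine ⟨M, fun i b c => X i ^ (M - N (i, b, c)) * G (i, b, c) i, fun i b c => ?_,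
    fun i b c z hz => ?_, fun i c f hf z hz => ?_, fun i z hz => ?_, fun i j b c z hz => ?_⟩
  · have := (isHomogeneous_X_pow (R := ℂ) i (M - N (i, b, c))).mul (g1 (i, b, c) i)
    rwa [← add_assoc, Nat.sub_add_cancel (le _)] at this
  · obtain ⟨v, hv, w, hw, h0⟩ := h.ne z hz.1
    rw [ev _ _ _ z hz.1, ev _ _ _ z hz.1, p1 z hz.1 v hv w hw h0, p1 z hz.1 v hv w hw h0]
    unfold d3
    ring
  · obtain ⟨v, hv, w, hw, h0, vi, wi⟩ := h.ne_i hZ hz
    have m := (aff_Zi hZ i).mfd z hz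
    have t1 := dP_tn m (tn_Zi hZ hz hv vi) hf
    have t2 := dP_tn m (tn_Zi hZ hz hw wi) hf
    rw [dP_apply] at t1 t2
    have : ∀ b, eval z (pderiv b f) * eval z (X i ^ (M - N (i, b, c)) * G (i, b, c) i) =
        w c / σ z v w * (eval z (pderiv b f) * v b) -
          v c / σ z v w * (eval z (pderiv b f) * w b) := fun b => by
      rw [ev _ _ _ z hz.1, p1 z hz.1 v hv w hw h0, d3, hz.2, vi, wi]
      ring
    simp only [this, Finset.sum_sub_distrib, ← Finset.mul_sum, t1, t2, mul_zero, sub_zero]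
  · obtain ⟨v, hv, w, hw, h0, vi, wi⟩ := h.ne_i hZ hz
    by_contra k
    have k1 : ∀ b c, v b * w c = v c * w b := fun b c => by
      by_contra k2
      refine k ⟨b, c, ?_⟩
      rw [ev _ _ _ z hz.1, p1 z hz.1 v hv w hw h0, d3, hz.2, vi, wi]
      simpa [h0, sub_eq_zero] using k2
    obtain ⟨b, hb⟩ : ∃ b, v b ≠ 0 := by
      by_contra k2
      exact h0 (by rw [show v = 0 from funext fun b => not_not.1 fun e => k2 ⟨b, e⟩]; simp)
    have e : w = (w b / v b) • v := funext fun c => by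
      rw [Pi.smul_apply, smul_eq_mul]
      field_simp
      linear_combination k1 b c
    exact h0 (by rw [e, map_smul, h.alt z hz.1 v hv, smul_zero])
  · obtain ⟨v, hv, w, hw, h0⟩ := h.ne z hz
    simp only [ev _ _ _ z hz, p1 z hz v hv w hw h0, d3]
    ring

end Vale.Agent.P287T.Kx
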