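import Vale.Agent.P287T.Kx.Pre
import Vale.Agent.P287T.Kx.Tri
import Vale.Agent.P287T.Kx.H1

/-!
# The surface is a K3 surface
-/

namespace Vale.Agent.P287T.Kx

theorem stSpl : StSpl := fun _ _ _ c h E i p w hs => split_of_h1p c h E i p w hs

theorem stK3 : StK3 := stK3_of stTri stSpl

end Vale.Agent.P287T.Kx
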