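import Vale.Agent.P287T.Kx.Br

/-!
# The surface is a K3 surface, given the two remaining leaves
-/

open MvPolynomial CategoryTheory AlgebraicGeometry

namespace Vale.Agent.P287T.Kx

open Vale.Agent.P287Q Vale.Agent.P287Q.Cub Vale.Agent.P287Z Vale.Agent.P294Z

/-- **X3** -/
def StSpl : Prop := ∀ (ν : ℕ) (I : Ideal (MvPolynomial (Fin ν) ℂ)) (Y : Scheme.{0})
  (_ : Gr.Chart Y I), H1p I → ∀ (E : Y.Modules) (i : OX Y ⟶ E) (p : E ⟶ OX Y) (w : i ≫ p = 0),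
    (ShortComplex.mk i p w).ShortExact → IsSplitEpi p

theorem isK3_of (h1 : StTri) (h2 : StSpl) {ν : ℕ} {Z : Set (Fin ν → ℂ)} (hZ : PV (π₀ (Fin ν)) Z 2)
    (cn : IsConnected Z) (hs : ∃ σ, Sym Z σ) (h : H1p (vanishingIdeal ℂ Z))
    [Fact (IsHom (vanishingIdeal ℂ Z))] : Stm.IsK3 (PI (vanishingIdeal ℂ Z)) := by
  obtain ⟨N, G, t⟩ := h1 _ _ hZ hs
  exact ⟨smooth_PI hZ, connected_PI hZ.toMC cn,
    t.canon (Y := PI (vanishingIdeal ℂ Z)) hZ (pres _).chart rfl, h2 _ _ _ (pres _).chart h⟩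

theorem stK3_of (h1 : StTri) (h2 : StSpl) : StK3 := fun _ C hs h =>
  @isK3_of h1 h2 _ _ C.pv C.cn hs h (factI C)

end Vale.Agent.P287T.Kx
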