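import Vale.Agent.P287T.Kx.Aff

/-!
# The projective scheme of a smooth connected cone is smooth and connected
-/

open MvPolynomial Filter Topology CategoryTheory AlgebraicGeometry

namespace Vale.Agent.P287T.Kx

open Vale.Agent.P287Q Vale.Agent.P287Q.Cub Vale.Agent.P287Z Vale.Agent.P294Z

variable {ν n : ℕ} {Z : Set (Fin ν → ℂ)}

theorem exists_homog (i : Fin ν) (f : MvPolynomial (Fin ν) ℂ) :
    ∃ (d : ℕ) (g : MvPolynomial (Fin ν) ℂ), g.IsHomogeneous d ∧ ∀ (B : Type) [CommRing B]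
      (φ : MvPolynomial (Fin ν) ℂ →+* B), φ (X i) = 1 → φ g = φ f := by
  refine ⟨f.totalDegree, ∑ m ∈ Finset.range (f.totalDegree + 1),
    X i ^ (f.totalDegree - m) * homogeneousComponent m f, IsHomogeneous.sum _ _ _ fun m hm => ?_,
    fun B _ φ h => ?_⟩
  · have := ((isHomogeneous_X ℂ i).pow (f.totalDegree - m)).mul
      (homogeneousComponent_isHomogeneous m f)
    rwa [one_mul, Nat.sub_add_cancel (Nat.lt_succ_iff.1 (Finset.mem_range.1 hm))] at this
  · conv_rhs => rw [← sum_homogeneousComponent f]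
    simp [h]

theorem van_of_Zi (h : MC (π₀ (Fin ν)) Z) {i : Fin ν} {d : ℕ} {g : MvPolynomial (Fin ν) ℂ}
    (hg : g.IsHomogeneous d) (h0 : g ∈ vanishingIdeal ℂ (Zi Z i)) :
    X i * g ∈ vanishingIdeal ℂ Z := mem_van.2 fun z hz => by
  rw [map_mul, eval_X]
  refine mul_eq_zero.2 (or_iff_not_imp_left.2 fun hi => ?_)
  have := mem_van.1 h0 _ (mem_Zi h hz hi)
  rw [eval_smul hg] at this
  exact (mul_eq_zero.1 this).resolve_left (pow_ne_zero _ (inv_ne_zero hi))

variable {Y : Scheme.{0}}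

theorem ker_ev (h : MC (π₀ (Fin ν)) Z) (c : Gr.Chart Y (vanishingIdeal ℂ Z)) (i : Fin ν)
    (f : MvPolynomial (Fin ν) ℂ) : c.ev i f = 0 ↔ f ∈ vanishingIdeal ℂ (Zi Z i) := by
  obtain ⟨d, g, hg, e⟩ := exists_homog i f
  have e' : ∀ z ∈ Zi Z i, eval z g = eval z f := fun z hz => e _ _ ((eval_X _).trans hz.2)
  rw [← e _ _ (c.evX i)]
  refine ⟨fun h0 => mem_van.2 fun z hz => ?_, fun h0 => ?_⟩
  · obtain ⟨k, hk⟩ := c.ker i d g (Gr.hg_of_hom hg) h0
    simpa [hz.2, e' z hz] using mem_van.1 hk z hz.1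
  · have := c.evW i _ _ (Gr.hg_of_hom ((isHomogeneous_X ℂ i).mul hg)) (van_of_Zi h hg
      (mem_van.2 fun z hz => (e' z hz).trans (mem_van.1 h0 z hz)))
    rwa [map_mul, c.evX, one_mul] at this

variable [Y.Over (Spec (.of ℂ))]

/-- the constants -/
noncomputable abbrev alg (U : Y.Opens) : Algebra ℂ Γ(Y, U) := (cst Y U).hom.toAlgebra

/-- dehomogenization as a map of algebras -/
noncomputable def evA {I : Ideal (MvPolynomial (Fin ν) ℂ)} (c : Gr.Chart Y I) (hκ : c.κ = cst0 Y)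
    (i : Fin ν) : letI := alg (c.U i); MvPolynomial (Fin ν) ℂ →ₐ[ℂ] Γ(Y, c.U i) :=
  letI := alg (c.U i)
  { c.ev i with commutes' := fun a => (c.evC i a).trans (by rw [hκ]; rfl) }

theorem locally_chart (hZ : PV (π₀ (Fin ν)) Z n) (c : Gr.Chart Y (vanishingIdeal ℂ Z))
    (hκ : c.κ = cst0 Y) (i : Fin ν) :
    RingHom.Locally (RingHom.IsStandardSmoothOfRelativeDimension n) (cst Y (c.U i)).hom :=
  letI := alg (c.U i)
  (aff_Zi hZ i).locally (evA c hκ i) (c.surj i) (ker_ev hZ.toMC c i)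

theorem smooth_chart (hZ : PV (π₀ (Fin ν)) Z n) (c : Gr.Chart Y (vanishingIdeal ℂ Z))
    (hκ : c.κ = cst0 Y) : SmoothOfRelativeDimension n (Y ↘ Spec (.of ℂ)) :=
  HasRingHomProperty.of_iSup_eq_top (P := @SmoothOfRelativeDimension n)
    (fun i => ⟨c.U i, c.aff i⟩) c.cov fun i =>
    ((RingHom.locally_respectsIso RingHom.isStandardSmoothOfRelativeDimension_respectsIso).cancel_left_isIso
      (Scheme.ΓSpecIso (.of ℂ)).inv _).1 (locally_chart hZ c hκ i)

theorem smooth_PI (hZ : PV (π₀ (Fin ν)) Z n) [Fact (IsHom (vanishingIdeal ℂ Z))] :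
    SmoothOfRelativeDimension n (PI (vanishingIdeal ℂ Z) ↘ Spec (.of ℂ)) :=
  smooth_chart (Y := PI (vanishingIdeal ℂ Z)) hZ (pres _).chart rfl

section

variable [Fact (IsHom (vanishingIdeal ℂ Z))]

/-- evaluation at a point of the cone -/
noncomputable def evB (z : Z) : MvPolynomial (Fin ν) ℂ ⧸ vanishingIdeal ℂ Z →+* ℂ :=
  Ideal.Quotient.lift _ (eval z.1) fun _ hf => mem_van.1 hf _ z.2

/-- the point of the scheme -/
noncomputable def pt (h : MC (π₀ (Fin ν)) Z) (z : Z) : ProjectiveSpectrum (gr (vanishingIdeal ℂ Z)) where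
  asHomogeneousIdeal := (RingHom.ker (evB z)).homogeneousCore _
  isPrime := (RingHom.ker_isPrime _).homogeneousCore
  not_irrelevant_le e := by
    obtain ⟨i, hi⟩ := ne_zero h z.2
    exact hi ((eval_X _).symm.trans (Ideal.toIdeal_homogeneousCore_le _ _
      (e (HomogeneousIdeal.mem_irrelevant_of_mem _ one_pos (Stm.X_mem _ i)))))

theorem pt_mem (h : MC (π₀ (Fin ν)) Z) (z : Z) {d : ℕ} {f} (hf : f ∈ gr (vanishingIdeal ℂ Z) d) :
    pt h z ∈ ProjectiveSpectrum.basicOpen _ f ↔ evB z f ≠ 0 :=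
  not_congr ⟨fun e => Ideal.toIdeal_homogeneousCore_le _ _ e,
    fun e => Ideal.mem_homogeneousCore_of_homogeneous_of_mem ⟨d, hf⟩ e⟩

theorem connected_PI (h : MC (π₀ (Fin ν)) Z) (hc : IsConnected Z) :
    ConnectedSpace (PI (vanishingIdeal ℂ Z)) := by
  have := isConnected_iff_connectedSpace.1 hc
  have b := ProjectiveSpectrum.isTopologicalBasis_basic_opens (gr (vanishingIdeal ℂ Z))
  have h1 : Continuous (pt h) := b.continuous_iff.2 (by
    rintro _ ⟨f, rfl⟩
    beta_reduce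
    rw [ProjectiveSpectrum.basicOpen_eq_union_of_projection, TopologicalSpace.Opens.coe_iSup,
      Set.preimage_iUnion]
    refine isOpen_iUnion fun d => ?_
    obtain ⟨g, -, hg⟩ := (DirectSum.decompose (gr (vanishingIdeal ℂ Z)) f d).2
    have : IsOpen {z : Z | eval z.1 g ≠ 0} :=
      isOpen_ne_fun ((MvPolynomial.continuous_eval g).comp continuous_subtype_val) continuous_const
    refine (congrArg IsOpen (Set.ext fun z => ?_)).mp this
    exact ((pt_mem h z (DirectSum.decompose (gr (vanishingIdeal ℂ Z)) f d).2).trans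
      (by rw [← hg]; rfl)).symm)
  have h2 : DenseRange (pt h) := b.dense_iff.2 (by
    rintro _ ⟨f, rfl⟩ ⟨x, hx⟩
    beta_reduce at hx ⊢
    rw [ProjectiveSpectrum.basicOpen_eq_union_of_projection, TopologicalSpace.Opens.coe_iSup] at hx ⊢
    obtain ⟨d, hd⟩ := Set.mem_iUnion.1 hx
    obtain ⟨g, -, hg⟩ := (DirectSum.decompose (gr (vanishingIdeal ℂ Z)) f d).2
    by_contra e
    refine hd ?_
    have : (DirectSum.decompose (gr (vanishingIdeal ℂ Z)) f d).1 = 0 := by
      rw [← hg]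
      refine Ideal.Quotient.eq_zero_iff_mem.2 (mem_van.2 fun z hz => by_contra fun c => e ?_)
      exact ⟨_, Set.mem_iUnion.2 ⟨d, (pt_mem h ⟨z, hz⟩
        (DirectSum.decompose (gr (vanishingIdeal ℂ Z)) f d).2).2 (by rw [← hg]; exact c)⟩, _, rfl⟩
    exact (show GradedRing.proj _ d f = 0 from this) ▸ zero_mem _)
  exact { h2.preconnectedSpace h1 with toNonempty := ⟨pt h (Classical.arbitrary _)⟩ }

end

end Vale.Agent.P287T.Kx
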