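import Vale.Agent.P287T.Kx.Sm
import Vale.Agent.P287T.Kx.Ga

/-!
# The inverse of the symplectic form in coordinates: the interface
-/

open MvPolynomial

namespace Vale.Agent.P287T.Kx

open Vale.Agent.P287Q Vale.Agent.P287Q.Cub

variable {ν : ℕ}

/-- `G i b c = z i ^ N * P i b c`, where `P` is an alternating tensor of degree three which spans
`⋀³` of the tangent space of the cone at each point. -/
structure Tri (Z : Set (Fin ν → ℂ)) (N : ℕ)
    (G : Fin ν → Fin ν → Fin ν → MvPolynomial (Fin ν) ℂ) : Prop where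
  hom : ∀ i b c, (G i b c).IsHomogeneous (N + 3)
  alt : ∀ i b c, ∀ z ∈ Zi Z i, eval z (G i b c) = - eval z (G i c b)
  tan : ∀ i c, ∀ f ∈ vanishingIdeal ℂ (Zi Z i), ∀ z ∈ Zi Z i,
    ∑ b, eval z (pderiv b f) * eval z (G i b c) = 0
  ne : ∀ i, ∀ z ∈ Zi Z i, ∃ b c, eval z (G i b c) ≠ 0
  rel : ∀ i j b c, ∀ z ∈ Z, z i ^ (N + 1) * eval z (G j b c) =
    z j ^ N * (z j * eval z (G i b c) - z c * eval z (G i b j) - z b * eval z (G i j c))

/-- **X4a** -/
def StTri : Prop := ∀ (ν : ℕ) (Z : Set (Fin ν → ℂ)), PV (π₀ (Fin ν)) Z 2 → (∃ σ, Sym Z σ) →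
  ∃ N G, Tri Z N G

end Vale.Agent.P287T.Kx
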